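import Vale.Agent.P354FA.Src
import Vale.Agent.P354XZ.Props2
import Vale.Agent.P354YF.Sy

/-! The normalised jets in the outgoing gauge. -/

noncomputable section

namespace Vale.Agent.P354FA

open MvPolynomial Gn
open Vale.Agent.P354XG (Der GHP D_mul D_add D_sub D_zero D_neg D_one)
open Vale.Agent.P354XZ hiding Lt
open Vale.Agent.P354XZ.NF (nz)
open Vale.Agent.P354YF

theorem act_HH (c : Bool) (w : List Lt) (k : ℕ) :
    act H (X (c, w, k)) + act Hb (X (c, w, k)) = (2 * bw w k) • (X (c, w, k) : Fm) := by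
  induction w with
  | nil =>
    cases c <;> simp only [act_nil, wc, wt, bw, bl, List.map_nil, List.sum_nil] <;> module
  | cons x w ih =>
    have e : lc H x + lc Hb x = 2 * bx x := by
      obtain ⟨a, b⟩ := x
      cases a <;> cases b <;> rfl
    have := congrArg (nab x) ih
    rw [map_add, Derivation.map_smul] at this
    rw [← nab_X, act_nab, act_nab, bw_cons, mul_add, add_smul, ← this, ← e, add_smul]
    simp only [lt]; abel

variable {A : Type} [CommRing A] [Algebra ℂ A]

theorem two_cancel {a b : A} (e : 2 * a = 2 * b) : a = b := by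
  have : algebraMap ℂ A (1 / 2) * 2 = 1 := by
    rw [← map_ofNat (algebraMap ℂ A) 2, ← map_mul]; norm_num
  linear_combination algebraMap ℂ A (1 / 2) * e - (a - b) * this

variable {C : Ch A}

theorem nz_add (a b : ℤ) : nz C (a + b) = nz C a * nz C b := by
  rw [nz, nz, nz, neg_add, zpow_add, Units.val_mul]

theorem nz_zero : nz C 0 = 1 := by simp [nz]
theorem nz_neg_one : nz C (-1) = C.N := by simp [nz]
theorem nz_N (b : ℤ) : nz C (b + 1) * C.N = nz C b := by
  rw [← nz_neg_one, ← nz_add, add_neg_cancel_right]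

theorem D_nz {D : Der A} (hD : D C.N = 0) (b : ℤ) : D (nz C b) = 0 := by
  have e : ∀ b : ℤ, D (nz C b) = C.N * D (nz C (b + 1)) := fun b => by
    rw [← nz_N b, D_mul, hD, mul_zero, zero_add]
  induction b using Int.induction_on with
  | zero => rw [nz_zero, D_one]
  | succ n ih => exact (Units.mul_right_eq_zero C.N).1 ((e n).symm.trans ih)
  | pred n ih => rw [e, sub_add_cancel, ih, mul_zero]

theorem c_nz (h : C.Is) (b : ℤ) : C.c (nz C b) = nz C b := by
  have e : ∀ b : ℤ, C.c (nz C b) = C.c (nz C (b + 1)) * C.N := fun b => by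
    rw [← nz_N b, map_mul, h.c_N]
  induction b using Int.induction_on with
  | zero => rw [nz_zero, map_one]
  | succ n ih => exact (Units.mul_left_inj C.N).1 (by rw [← e, ih, nz_N])
  | pred n ih => rw [e, sub_add_cancel, ih, ← nz_N (-(n : ℤ) - 1), sub_add_cancel]

theorem S_nz (h : C.Is) (b : ℤ) : C.S (nz C b) = -(2 * b) * nz C b := by
  have e : ∀ b : ℤ, C.S (nz C b) = C.N * C.S (nz C (b + 1)) + 2 * nz C b := fun b => by
    rw [← nz_N b, D_mul, h.S_N]; ring
  induction b using Int.induction_on with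
  | zero => simp [nz_zero]
  | succ n ih =>
    refine (Units.mul_right_inj C.N).1 ?_
    have := e n
    push_cast at *
    linear_combination ih - this + (2 * (n + 1)) * nz_N (C := C) n
  | pred n ih =>
    have := nz_N (C := C) (-(n : ℤ) - 1)
    rw [sub_add_cancel] at this
    rw [e, sub_add_cancel, ih]
    push_cast
    linear_combination (2 * n) * this

theorem vf_N (h : C.Is) (a : Fin 5 → A) : C.vf a C.N = 0 := by
  rw [vf_ap, show C.T C.N = 0 from h.D_N 0, show C.R C.N = 0 from h.D_N 1,
    show C.an 0 C.N = 0 from h.D_N 2, show C.an 1 C.N = 0 from h.D_N 3,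
    show C.an 2 C.N = 0 from h.D_N 4]
  ring

theorem c_vf (h : C.Is) (j : C.J) (a : Fin 5 → A) (f : A) :
    C.c (C.vf a f) = C.vf (C.cj a) (C.c f) := by
  have q : C.c (C.an 1 f) = C.an 0 (C.c f) := by
    have := congrArg C.c (h.c_P (C.c f))
    rw [cc h j, cc h j] at this
    exact this.symm
  simp only [vf_ap, map_add, map_mul, T_c h j, R_c h j, h.c_P, q, h.c_V, Ch.cj,
    Matrix.cons_val_zero, Matrix.cons_val_one, Matrix.cons_val]
  ring

variable (N : NF A) (C)

/-- The normalised frame, boost connection, spin coefficients and jets. -/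
def Eh : Lt → Der A
  | (false, false) => C.R
  | (true, true) => N.n C
  | (false, true) => N.m C
  | (true, false) => N.mb C

def gm : Lt → A
  | (false, false) => 0
  | (true, true) => N.ga
  | (false, true) => N.be
  | (true, false) => C.c N.be

def Gh (x : Lt) (g : Gn) : A := nz C (bx x - sh g) * Gam N.G x g
def Jh (c : Bool) (w : List Lt) (k : ℕ) : A := nz C (bw w k) * val N.G (c, w, k)
def Ah (g : Gn) (c : Bool) (w : List Lt) (k : ℕ) : A :=
  nz C (bw w k + sh g) * ev N.G (act g (X (c, w, k)))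

/-- The family of the far zone. -/
def Vw (N N0 : NF A) (C : Ch A) (w : List Lt) (i : Fin 5) : A :=
  Jh C N false w i - Jh C N0 false w i

theorem Ah_eq (g : Gn) (c : Bool) (k : ℕ) {s : ℕ} (j : Fin s → Lt) :
    Ah C N g c (List.ofFn j) k = wc g c k * Jh C N c (List.ofFn j) (wt g k) +
      ∑ j2 : Fin s → Lt, Mx g (List.ofFn j) (List.ofFn j2) * Jh C N c (List.ofFn j2) k := by
  rw [Ah, act_X, gx_eq, map_add, map_sum, mul_add, Finset.mul_sum]
  simp only [ev_X, zsmul_eq_mul, map_mul, map_intCast, Jh]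
  congr 1
  · by_cases e : wc g c k = 0
    · simp [e]
    · rw [bw_wt e]; ring
  · refine Finset.sum_congr rfl fun j2 _ => ?_
    by_cases e : Mx g (List.ofFn j) (List.ofFn j2) = 0
    · simp [e]
    · rw [Mx_bw e]; ring

variable {N C} (h : C.Is) (hN : N.Is C) (j : C.J)
include h hN

omit h in
theorem S_val (c : Bool) (w : List Lt) (k : ℕ) :
    C.S (val N.G (c, w, k)) = 2 * (bw w k : A) * val N.G (c, w, k) := by
  rw [← hN.HS, ← ev_X, H_ev hN.is, Hb_ev hN.is, ← map_add, act_HH, map_zsmul, zsmul_eq_mul]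
  push_cast; ring

theorem S_Jh (c : Bool) (w : List Lt) (k : ℕ) : C.S (Jh C N c w k) = 0 := by
  rw [Jh, D_mul, S_val hN, S_nz h]; ring

theorem c_Jh (c : Bool) (w : List Lt) (k : ℕ) :
    C.c (Jh C N c w k) = Jh C N (!c) (w.map cl) k := by
  rw [Jh, Jh, map_mul, c_nz h, bw_cl, ← hN.c_eq, c_val hN.is]

include j

theorem ep_eq (f : A) : 2 * N.G.ep f = 2 * N.mb C f + C.c N.be * C.S f := by
  have := congrArg C.c (hN.et (C.c f))
  rw [map_mul, map_add, map_mul, map_mul, map_ofNat, c_vf h j, h.c_S, cc h j, ← hN.c_eq,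
    hN.is.c_et, hN.is.cc] at this
  rw [this, hN.c_eq]; rfl

theorem hatD (x : Lt) {f : A} {b : ℤ} (hf : C.S f = 2 * b * f) :
    Eh C N x (nz C b * f) = nz C (b + bx x) * Dl N.G x f - b * gm C N x * (nz C b * f) := by
  match x with
  | (false, false) =>
    rw [Eh, Dl, gm, D_mul, D_nz (D := C.R) (h.D_N 1), hN.th,
      show bx (false, false) = 1 from rfl]
    linear_combination -C.R f * nz_N (C := C) b
  | (true, true) =>
    have e : C.N * N.G.tp f = C.vf N.nc f + N.ga * b * f :=
      two_cancel (by rw [hN.tp, hf]; ring)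
    rw [Eh, Dl, gm, D_mul, NF.n, D_nz (vf_N h _), show bx (true, true) = -1 from rfl, nz_add,
      nz_neg_one]
    linear_combination -nz C b * e
  | (false, true) =>
    have e : N.G.et f = C.vf N.mc f + N.be * b * f := two_cancel (by rw [hN.et, hf]; ring)
    rw [Eh, Dl, gm, D_mul, NF.m, D_nz (vf_N h _), show bx (false, true) = 0 from rfl, add_zero, e]
    ring
  | (true, false) =>
    have e : N.G.ep f = N.mb C f + C.c N.be * b * f :=
      two_cancel (by rw [ep_eq h hN j, hf]; ring)
    rw [Eh, Dl, gm, D_mul, show bx (true, false) = 0 from rfl, add_zero, e, NF.mb, D_nz (vf_N h _)]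
    ring

/-- The master formula for the normalised jets. -/
theorem hat (x : Lt) (c : Bool) (w : List Lt) (k : ℕ) :
    Eh C N x (Jh C N c w k) = Jh C N c (x :: w) k - (Gh C N x F * Ah C N F c w k +
      Gh C N x E * Ah C N E c w k + Gh C N x Fb * Ah C N Fb c w k +
      Gh C N x Eb * Ah C N Eb c w k) - bw w k * gm C N x * Jh C N c w k := by
  have e : ∀ g, Gh C N x g * Ah C N g c w k =
      nz C (bw w k + bx x) * (Gam N.G x g * ev N.G (act g (X (c, w, k)))) := fun g => by
    rw [show bw w k + bx x = (bx x - sh g) + (bw w k + sh g) by ring, nz_add, Gh, Ah]; ring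
  rw [Jh, hatD h hN j x (S_val hN c w k), Jh, val_cons, bw_cons, e, e, e, e, cn]
  ring

omit h j in
/-- The Bianchi pairs for the normalised jets. -/
theorem pair_hat (y : Bool) {k : ℕ} (hk : k ≤ 3) (w : List Lt) :
    Jh C N false ((true, y) :: w) k = Jh C N false ((false, y) :: w) (k + 1) +
      nz C (bw w k + bx (true, y)) * ev N.G (mv (true, y) k w - mv (false, y) (k + 1) w) := by
  rw [Jh, Jh, pair hN.is y hk, bw_cons, bw_cons, bw_succ,
    show bw w k - 1 + bx (false, y) = bw w k + bx (true, y) by simp [bx]; ring]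
  ring

end Vale.Agent.P354FA
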