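import Vale.Agent.P354FA.Ker

/-! The Bianchi system of the family of all words and its sources. -/

noncomputable section

namespace Vale.Agent.P354FA

open MvPolynomial Gn
open Vale.Agent.P354XG (Der GHP D_mul D_add D_sub D_zero D_neg D_one)
open Vale.Agent.P354XZ hiding Lt
open Vale.Agent.P354XZ.NF (nz)
open Vale.Agent.P354YF

variable {A : Type} [CommRing A] [Algebra ℂ A] {C : Ch A}

section
variable {U : Un A} {V : List Lt → Fin 5 → A} {s : ℕ} {e : Bool} {i : ℕ} {f g : A}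

theorem src_neg (a : C.Src U V s e i f) : C.Src U V s e i (-f) := by simpa using a.smul (-1)

theorem src_sub (a : C.Src U V s e i f) (b : C.Src U V s e i g) : C.Src U V s e i (f - g) := by
  rw [sub_eq_add_neg]; exact a.add (src_neg b)

theorem src_sum {ι : Type} [Fintype ι] {f : ι → A} (a : ∀ x, C.Src U V s e i (f x)) :
    C.Src U V s e i (∑ x, f x) :=
  Finset.sum_induction f _ (fun _ _ => Ch.Src.add) Ch.Src.zero fun x _ => a x

theorem src_of (a : C.Src U V s e i f) (b : g = f) : C.Src U V s e i g := b ▸ a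
end

variable (C) (N N0 : NF A)

/-- The differences, for all indices. -/
def VN (c : Bool) (w : List Lt) (k : ℕ) : A := Jh C N c w k - Jh C N0 c w k

/-- The conditions on a coefficient a (reference value a0, flat value z / r). -/
def Ok (a a0 : A) (z : ℤ) (e : Bool) (i k : ℕ) : Prop :=
  k ≤ 4 ∧ (a - a0 = 0 ∨ ∃ b g, a - a0 = C.cb b ((N.df N0 C).at g) ∧ okGV e i (cls g) k ∧
    (k = 2 → okKG e i g)) ∧ (a0 - z * C.ri = 0 ∨ (C.Sy 2 (a0 - z * C.ri) ∧ k ≤ i + 1))

/-- The gauge quantity which belongs to a spin coefficient. -/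
def gi : Lt → Gn → Bool × Gi
  | (true, true), F => (false, .inr (.inl 0))
  | (true, true), E => (false, .inl 1)
  | (true, true), Fb => (true, .inr (.inl 0))
  | (true, true), _ => (true, .inl 1)
  | (false, true), F => (false, .inr (.inr 0))
  | (false, true), E => (false, .inr (.inl 2))
  | (false, true), Fb => (true, .inr (.inr 1))
  | (false, true), _ => (true, .inr (.inl 1))
  | _, F => (false, .inr (.inr 1))
  | _, E => (false, .inr (.inl 1))
  | _, Fb => (true, .inr (.inr 0))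
  | _, _ => (true, .inr (.inl 2))

variable {C N N0} {t : Fin 4 → A} (a : N.Ga N0 C t) (j : C.J)
include a

theorem Gh_df {x : Lt} {g : Gn} (hx : x ≠ (false, false)) (hg : sh g ≠ 0) :
    Gh C N x g - Gh C N0 x g = C.cb (gi x g).1 ((N.df N0 C).at (gi x g).2) := by
  obtain ⟨x, y⟩ := x
  cases x <;> cases y <;> cases g <;> first
    | exact absurd rfl hx
    | exact absurd rfl hg
    | simp [Gh, Gam, gi, bx, sh, Ch.cb, Un.at, NF.df, NF.gb, NF.g1, NF.g2, a.is.c_eq,
        a.rf.is.c_eq, nz_zero, c_nz a.ch]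

theorem Gh_l (g : Gn) : Gh C N (false, false) g - Gh C N0 (false, false) g = 0 := by
  cases g <;> simp [Gh, Gam, a.is.ka, a.rf.is.ka, a.ta, a.is.c_eq, a.rf.is.c_eq]

theorem VN_cb (c : Bool) (w : List Lt) {k : ℕ} (hk : k ≤ 4) : ∃ v : List Lt,
    v.length = w.length ∧ VN C N N0 c w k = C.cb c (Vw N N0 C v ⟨k, by omega⟩) := by
  cases c
  · exact ⟨w, rfl, rfl⟩
  · refine ⟨w.map cl, List.length_map _, ?_⟩
    have : (w.map cl).map cl = w := by simp [cl, Function.comp_def]
    simp only [Ch.cb, Vw, VN, if_true, map_sub, c_Jh a.ch a.is, c_Jh a.ch a.rf.is, this,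
      Bool.not_false]

variable {s : ℕ} {e : Bool} {i : ℕ}

theorem src_kg {K : A} {w : List Lt} {k : ℕ} (hK : C.Sy (3 + w.length) K)
    (hz : w = [] → k ≠ 2 → K = 0) (b : Bool) {g : Gi} (hk : k = 2 → okKG e i g) :
    C.Src (N.df N0 C) (Vw N N0 C) s e i (K * C.cb b ((N.df N0 C).at g)) := by
  cases w with
  | nil =>
    by_cases e : k = 2
    · exact .kg3 b g (by simpa using hK) (hk e)
    · rw [hz rfl e, zero_mul]; exact .zero
  | cons x w =>
    refine .kg4 b g (sy_mono a.ch ?_ hK)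
    rw [List.length_cons]; push_cast; linarith [Nat.cast_nonneg (α := ℝ) w.length]

include j

theorem src_prod {p p0 : A} {z : ℤ} {k : ℕ} (o : Ok C N N0 p p0 z e i k) {w : List Lt}
    (hw : w.length ≤ s) : C.Src (N.df N0 C) (Vw N N0 C) s e i
      (p * Jh C N false w k - p0 * Jh C N0 false w k - z * C.ri * VN C N N0 false w k) := by
  obtain ⟨hk, o1, o2⟩ := o
  refine src_of (f := (p - p0) * Vw N N0 C w ⟨k, by omega⟩ + Jh C N0 false w k * (p - p0) +
    (p0 - z * C.ri) * Vw N N0 C w ⟨k, by omega⟩) (.add ?_ ?_) (by simp only [Vw, VN]; ring)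
  · rcases o1 with o | ⟨b, g, o, o3, o4⟩ <;> rw [o]
    · rw [zero_mul, mul_zero, add_zero]; exact .zero
    · exact .add (.gv b g w _ hw o3) (src_kg a (sy_Jh a.ch a.rf j _ w k)
        (fun e hk => e ▸ J0_nil a.rf _ hk) b o4)
  · rcases o2 with o | o
    · rw [o, zero_mul]; exact .zero
    · exact .kv2 w _ o.1 hw o.2

/-- The connection terms. -/
def Pc (C : Ch A) (N N0 : NF A) (x : Lt) (g : Gn) {s : ℕ} (v : Fin s → Lt) (k : ℕ) : A :=
  Gh C N x g * Ah C N g false (List.ofFn v) k - Gh C N0 x g * Ah C N0 g false (List.ofFn v) k -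
    fl x g * C.ri * (wc g false k * VN C N N0 false (List.ofFn v) (wt g k) +
      ∑ v2 : Fin s → Lt, Mx g (List.ofFn v) (List.ofFn v2) * VN C N N0 false (List.ofFn v2) k)

theorem src_Pc (x : Lt) (g : Gn) (v : Fin s → Lt) {k : ℕ}
    (o1 : Ok C N N0 (Gh C N x g) (Gh C N0 x g) (fl x g) e i k)
    (o2 : wc g false k ≠ 0 → Ok C N N0 (Gh C N x g) (Gh C N0 x g) (fl x g) e i (wt g k)) :
    C.Src (N.df N0 C) (Vw N N0 C) s e i (Pc C N N0 x g v k) := by
  have b := src_sum fun v2 : Fin s → Lt => (src_prod a j o1 (List.length_ofFn (f := v2)).le).smul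
    (Mx g (List.ofFn v) (List.ofFn v2))
  simp only [mul_sub, Finset.sum_sub_distrib, mul_left_comm (Mx g _ _ : A), ← Finset.mul_sum] at b
  rw [Pc, Ah_eq, Ah_eq]
  by_cases e : wc g false k = 0
  · exact src_of b (by rw [e]; push_cast; ring)
  · exact src_of (((src_prod a j (o2 e) (List.length_ofFn (f := v)).le).smul (wc g false k)).add b)
      (by ring)

theorem ok_Gh {x : Lt} {g : Gn} (hx : x ≠ (false, false)) (hg : sh g ≠ 0) {k : ℕ}
    (hk : k ≤ 4 ∧ k ≤ i + 1 ∧ okGV e i (cls (gi x g).2) k ∧ (k = 2 → okKG e i (gi x g).2)) :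
    Ok C N N0 (Gh C N x g) (Gh C N0 x g) (fl x g) e i k :=
  ⟨hk.1, .inr ⟨_, _, Gh_df a hx hg, hk.2.2⟩, .inr ⟨sy_Gh a.ch a.rf j x g, hk.2.1⟩⟩

theorem ok_l (g : Gn) {k : ℕ} (hk : k ≤ 4 ∧ k ≤ i + 1) : Ok C N N0 (Gh C N (false, false) g)
    (Gh C N0 (false, false) g) (fl (false, false) g) e i k :=
  ⟨hk.1, .inl (Gh_l a g), .inr ⟨sy_Gh a.ch a.rf j _ g, hk.2⟩⟩

theorem src_gm (x : Lt) {k : ℕ} (b : Bool) (g : Gi)
    (o : gm C N x - gm C N0 x = C.cb b ((N.df N0 C).at g))
    (hk : k ≤ 4 ∧ k ≤ i + 1 ∧ okGV e i (cls g) k ∧ (k = 2 → okKG e i g)) {w : List Lt}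
    (hw : w.length ≤ s) : C.Src (N.df N0 C) (Vw N N0 C) s e i
      (gm C N x * Jh C N false w k - gm C N0 x * Jh C N0 false w k) := by
  simpa using src_prod a j (z := 0) ⟨hk.1, .inr ⟨b, g, o, hk.2.2⟩,
    .inr ⟨by simpa using sy_gm a.ch a.rf j x, hk.2.1⟩⟩ hw

/-- The difference of the frames acting on the reference solution. -/
theorem src_vf {p p0 : Fin 5 → A} (b : Bool) (g1 g2 g3 g4 : Gi) (z : ℤ)
    (o1 : C.ri * p 1 - C.ri * p0 1 = C.cb b ((N.df N0 C).at g1))
    (o2 : p 2 - p0 2 = C.cb b ((N.df N0 C).at g2)) (o3 : p 3 - p0 3 = C.cb b ((N.df N0 C).at g3))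
    (o4 : p 4 - p0 4 = z * C.cb b ((N.df N0 C).at g4)) {k : ℕ}
    (hk : k = 2 → okKG e i g1 ∧ okKG e i g2 ∧ okKG e i g3 ∧ okKG e i g4) (w : List Lt) :
    C.Src (N.df N0 C) (Vw N N0 C) s e i
      (C.vf p (Jh C N0 false w k) - C.vf p0 (Jh C N0 false w k)) := by
  have q := sy_Jh a.ch a.rf j false w k
  have z0 : ∀ D : Der A, w = [] → k ≠ 2 → D (Jh C N0 false w k) = 0 := fun D e hk => by
    rw [e, J0_nil a.rf _ hk, D_zero]
  refine src_of ((((src_kg a (sy_X a.ch 1 q) (z0 _) b fun e => (hk e).1).add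
    (src_kg a (sy_an a.ch 0 q) (z0 _) b fun e => (hk e).2.1)).add
    (src_kg a (sy_an a.ch 1 q) (z0 _) b fun e => (hk e).2.2.1)).add
    ((src_kg a (sy_an a.ch 2 q) (z0 _) b fun e => (hk e).2.2.2).smul z)) ?_
  rw [vf_ap, vf_ap, q.1, R_eq a.ch, ← o1, ← o2, ← o3]
  linear_combination C.an 2 (Jh C N0 false w k) * o4

theorem src_Q2 {S : ℕ → ℕ → Prop} (hS : ∀ k1 k2, S k1 k2 → k1 ≤ 4 ∧ k2 ≤ 4 ∧ okVV e i k1 k2)
    {b : ℤ} {P : Fm} (hP : P ∈ Q2 S s b) :
    C.Src (N.df N0 C) (Vw N N0 C) s e i (nz C b * ev N.G P - nz C b * ev N0.G P) := by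
  induction hP using Submodule.span_induction with
  | mem P hP =>
    obtain ⟨c, w1, k1, w2, k2, hs, hl, rfl, rfl⟩ := hP
    obtain ⟨h1, h2, h3⟩ := hS _ _ hs
    obtain ⟨v, hv, e1⟩ := VN_cb a c w1 h1
    have m : ∀ c w k, C.Sy 3 (Jh C N0 c w k) := fun c w k =>
      sy_mono a.ch (le_add_of_nonneg_right (Nat.cast_nonneg _)) (sy_Jh a.ch a.rf j c w k)
    refine src_of (((Ch.Src.vv c v w2 ⟨k1, by omega⟩ ⟨k2, by omega⟩ (by omega) h3).add
      (.kv3 false w2 ⟨k2, by omega⟩ (m c w1 k1) (by omega))).add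
      (.kv3 c v ⟨k1, by omega⟩ (m false w2 k2) (by omega))) ?_
    rw [← e1]
    simp only [nz_add, map_mul, ev_X, Ch.cb, Vw, VN, Jh, Bool.false_eq_true, if_false]
    ring
  | zero => simpa using Ch.Src.zero
  | add P Q _ _ hP hQ => exact src_of (hP.add hQ) (by simp only [map_add]; ring)
  | smul z P _ hP => exact src_of (hP.smul z) (by rw [map_zsmul, map_zsmul]; ring)

theorem src_mv (y : Bool) (hi : i ≤ 3) (v : Fin s → Lt) {b : ℤ}
    (hb : b = bw (List.ofFn v) i + bx (true, y)) {P : Fm}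
    (hP : P = mv (true, y) i (List.ofFn v) - mv (false, y) (i + 1) (List.ofFn v)) :
    C.Src (N.df N0 C) (Vw N N0 C) s y i (nz C b * ev N.G P - nz C b * ev N0.G P) := by
  have e1 := mv_Q2 (true, y) (k := i) (by omega) (List.ofFn v)
  have e2 := mv_Q2 (false, y) (k := i + 1) (by omega) (List.ofFn v)
  rw [List.length_ofFn] at e1 e2
  rw [show bw (List.ofFn v) (i + 1) + bx (false, y) = b by rw [hb, bw_succ]; simp [bx]; ring] at e2
  rw [← hb] at e1
  refine src_of (src_sub (src_Q2 a j ?_ e1) (src_Q2 a j ?_ e2)) (by rw [hP, map_sub, map_sub]; ring)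
    <;> cases y <;> simp [Sx, okVV] <;> omega

theorem srcA (hi : i ≤ 3) (v : Fin s → Lt) : C.Src (N.df N0 C) (Vw N N0 C) s true i
    (N.n C (VN C N N0 false (List.ofFn v) i) - (N.m C (VN C N N0 false (List.ofFn v) (i + 1)) +
      (i + 1) * C.ri * VN C N N0 false (List.ofFn v) i + ∑ v2 : Fin s → Lt,
        ((Mx E (List.ofFn v) (List.ofFn v2) - Mx Fb (List.ofFn v) (List.ofFn v2) : ℤ) : A) * C.ri *
          VN C N N0 false (List.ofFn v2) (i + 1))) := by
  have n : ∀ g, sh g ≠ 0 → C.Src (N.df N0 C) (Vw N N0 C) s true i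
      (Pc C N N0 (true, true) g v i) := fun g hg =>
    src_Pc a j _ g v (ok_Gh a j (by decide) hg (by
      cases g <;> simp [okGV, okKG, cls, gi] <;> omega)) fun e => ok_Gh a j (by decide) hg (by
      cases g <;> simp [okGV, okKG, cls, gi, wc, wt, sh] at e hg ⊢ <;> omega)
  have m : ∀ g, sh g ≠ 0 → C.Src (N.df N0 C) (Vw N N0 C) s true i
      (Pc C N N0 (false, true) g v (i + 1)) := fun g hg =>
    src_Pc a j _ g v (ok_Gh a j (by decide) hg (by
      cases g <;> simp [okGV, okKG, cls, gi] <;> omega)) fun e => by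
      by_cases hF : g = F
      · subst hF
        simp only [wc, wt] at e ⊢
        exact ⟨by omega, .inr ⟨_, _, Gh_df a (by decide) hg, by simp [okGV, cls, gi],
          fun _ => .inl rfl⟩, .inl (by simp [Gh, Gam, fl, a.rf.zero.1])⟩
      · exact ok_Gh a j (by decide) hg (by
          cases g <;> simp [okGV, okKG, cls, gi, wc, wt, sh] at e hg hF ⊢ <;> omega)
  have l := (List.length_ofFn (f := v)).le
  have g1 := src_gm a j (e := true) (i := i) (true, true) (k := i) false (.inl 0) rfl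
    (by simp [okGV, okKG, cls]; omega) l
  have g2 := src_gm a j (e := true) (i := i) (false, true) (k := i + 1) false (.inr (.inl 3)) rfl
    (by simp [okGV, okKG, cls]; omega) l
  have d1 := src_vf a j (s := s) (e := true) (i := i) (p := N.nc) (p0 := N0.nc) false (.inl 3)
    (.inl 4) (.inl 5) (.inl 6) 1 rfl rfl rfl (by rw [Int.cast_one, one_mul]; rfl) (k := i)
    (by simp [okKG, cls]; omega) (List.ofFn v)
  have d2 := src_vf a j (s := s) (e := true) (i := i) (p := N.mc) (p0 := N0.mc) false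
    (.inr (.inl 5)) (.inr (.inl 6)) (.inr (.inl 7)) (.inr (.inl 8)) 1 rfl rfl rfl
    (by rw [Int.cast_one, one_mul]; rfl) (k := i + 1) (by simp [okKG, cls]; omega) (List.ofFn v)
  refine src_of (src_sub (((src_sub (src_sub (src_mv a j true hi v rfl rfl)
    ((((n F (by decide)).add (n E (by decide))).add (n Fb (by decide))).add (n Eb (by decide))))
    (g1.smul (bw (List.ofFn v) i))).add
    ((((m F (by decide)).add (m E (by decide))).add (m Fb (by decide))).add
    (m Eb (by decide)))).add ((g2.smul (bw (List.ofFn v) (i + 1))).add d2)) d1) ?_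
  have e1 := hat a.ch a.is j (true, true) false (List.ofFn v) i
  have e2 := hat a.ch a.is j (false, true) false (List.ofFn v) (i + 1)
  have e3 := hat a.ch a.rf.is j (true, true) false (List.ofFn v) i
  have e4 := hat a.ch a.rf.is j (false, true) false (List.ofFn v) (i + 1)
  have e5 := pair_hat a.is true hi (List.ofFn v)
  have e6 := pair_hat a.rf.is true hi (List.ofFn v)
  simp only [Eh, NF.n, NF.m] at e1 e2 e3 e4
  simp only [Int.cast_sub, sub_mul, Finset.sum_sub_distrib, mul_comm _ C.ri, mul_assoc,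
    ← Finset.mul_sum]
  simp only [Pc, fl, wc, wt, NF.n, NF.m, Nat.add_sub_cancel]
  rw [VN, VN, D_sub, D_sub]
  push_cast
  linear_combination e1 - e2 - e3 + e4 + e5 - e6

theorem srcB (hi : i ≤ 3) (v : Fin s → Lt) : C.Src (N.df N0 C) (Vw N N0 C) s false i
    (C.R (VN C N N0 false (List.ofFn v) (i + 1)) - (N.mb C (VN C N N0 false (List.ofFn v) i) -
      (4 - i) * C.ri * VN C N N0 false (List.ofFn v) (i + 1) - ∑ v2 : Fin s → Lt,
        ((Mx E (List.ofFn v2) (List.ofFn v) - Mx Fb (List.ofFn v2) (List.ofFn v) : ℤ) : A) * C.ri *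
          VN C N N0 false (List.ofFn v2) i)) := by
  have n : ∀ g, C.Src (N.df N0 C) (Vw N N0 C) s false i
      (Pc C N N0 (false, false) g v (i + 1)) := fun g => by
    by_cases hF : g = F
    · subst hF
      simpa [Pc, Gh, Gam, fl, a.is.ka, a.rf.is.ka] using Ch.Src.zero
    · exact src_Pc a j _ g v (ok_l a j g (by omega)) fun e => ok_l a j g (by
        cases g <;> simp [wc, wt] at e hF ⊢ <;> omega)
  have m : ∀ g, sh g ≠ 0 → C.Src (N.df N0 C) (Vw N N0 C) s false i
      (Pc C N N0 (true, false) g v i) := fun g hg =>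
    src_Pc a j _ g v (ok_Gh a j (by decide) hg (by
      cases g <;> simp [okGV, okKG, cls, gi] <;> omega)) fun e => ok_Gh a j (by decide) hg (by
      cases g <;> simp [okGV, okKG, cls, gi, wc, wt, sh] at e hg ⊢ <;> omega)
  have g2 := src_gm a j (e := false) (i := i) (true, false) (k := i) true (.inr (.inl 3))
    (map_sub C.c _ _).symm (by simp [okGV, okKG, cls]; omega) (List.length_ofFn (f := v)).le
  have d2 := src_vf a j (s := s) (e := false) (i := i) (p := C.cj N.mc) (p0 := C.cj N0.mc) true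
    (.inr (.inl 5)) (.inr (.inl 7)) (.inr (.inl 6)) (.inr (.inl 8)) (-1)
    (by simp [Ch.cj, Ch.cb, Un.at, NF.df, NF.g1, c_ri a.ch]) (map_sub C.c _ _).symm
    (map_sub C.c _ _).symm (by simp [Ch.cj, Ch.cb, Un.at, NF.df, NF.g1]; ring) (k := i)
    (by simp [okKG, cls]; omega) (List.ofFn v)
  refine src_of ((src_sub ((((m F (by decide)).add (m E (by decide))).add (m Fb (by decide))).add
    (m Eb (by decide))) (((((n F).add (n E)).add (n Fb)).add (n Eb)).add
    (src_mv a j false hi v rfl rfl))).add ((g2.smul (bw (List.ofFn v) i)).add d2)) ?_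
  have e1 := hat a.ch a.is j (false, false) false (List.ofFn v) (i + 1)
  have e2 := hat a.ch a.is j (true, false) false (List.ofFn v) i
  have e3 := hat a.ch a.rf.is j (false, false) false (List.ofFn v) (i + 1)
  have e4 := hat a.ch a.rf.is j (true, false) false (List.ofFn v) i
  have e5 := pair_hat a.is false hi (List.ofFn v)
  have e6 := pair_hat a.rf.is false hi (List.ofFn v)
  simp only [Eh, NF.mb, gm] at e1 e2 e3 e4
  simp only [Int.cast_sub, sub_mul, Finset.sum_sub_distrib, mul_comm _ C.ri, mul_assoc,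
    ← Finset.mul_sum, ← Mx_F, ← Mx_Eb]
  simp only [Pc, fl, wc, wt, NF.mb, gm, Nat.add_sub_cancel]
  rw [VN, VN, D_sub, D_sub]
  push_cast
  linear_combination e1 - e2 - e3 + e4 - e5 + e6

theorem bs : BS C N N0 (Vw N N0 C) := by
  refine fun s => ⟨fun v v2 => Mx E (List.ofFn v) (List.ofFn v2) -
    Mx Fb (List.ofFn v) (List.ofFn v2), _, _, ⟨fun v i => ?_, fun v i => ?_⟩,
    fun v i => ⟨srcA a j (Nat.lt_succ_iff.1 i.2) v, srcB a j (Nat.lt_succ_iff.1 i.2) v⟩⟩
  · simp only [Ch.Vs, Function.iterate_zero, id, Vw, VN, Fin.val_castSucc, Fin.val_succ,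
      Nat.cast_add, Nat.cast_one, Nat.cast_zero, sub_zero]
    ring
  · simp only [Ch.Vs, Function.iterate_zero, id, Vw, VN, Fin.val_castSucc, Fin.val_succ,
      Nat.cast_sub (show (i : ℕ) ≤ 4 from i.2.le), Nat.cast_ofNat]
    ring

end Vale.Agent.P354FA
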