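import Vale.Agent.P354FA.Form
import Vale.Agent.P354XG.GHP

/-!
The values of the formal variables for a solution of the GHP equations: val G (c, w, k) is the
component k of the covariant derivative along the word w of the Weyl spinor (or its conjugate).
-/

namespace Vale.Agent.P354FA

open MvPolynomial Gn
open Vale.Agent.P354XG (Der GHP D_mul D_add D_sub D_zero D_neg)

/-- The linear forms in the variables with words of length n. -/
noncomputable def Lin (n : ℕ) : Submodule ℤ Fm :=
  Submodule.span ℤ {P | ∃ c w k, List.length w = n ∧ P = X (c, w, k)}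

theorem X_mem (c : Bool) (w : List Lt) (k : ℕ) : (X (c, w, k) : Fm) ∈ Lin w.length :=
  Submodule.subset_span ⟨c, w, k, rfl, rfl⟩

theorem nab_mem (x : Lt) {n : ℕ} {P : Fm} (h : P ∈ Lin n) : nab x P ∈ Lin (n + 1) := by
  induction h using Submodule.span_induction with
  | mem P hP =>
    obtain ⟨c, w, k, rfl, rfl⟩ := hP
    rw [nab_X]; exact X_mem c (x :: w) k
  | zero => rw [map_zero]; exact zero_mem _
  | add P Q _ _ hP hQ => rw [map_add]; exact add_mem hP hQ
  | smul z P _ hP => rw [Derivation.map_smul]; exact Submodule.smul_mem _ _ hP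

theorem gx_mem (g : Gn) (c : Bool) (w : List Lt) (k : ℕ) : gx g c w k ∈ Lin w.length := by
  induction w with
  | nil => exact Submodule.smul_mem _ _ (X_mem c [] _)
  | cons x w ih =>
    exact add_mem (Submodule.smul_mem _ _ (X_mem c (lt g x :: w) k)) (nab_mem x ih)

theorem act_mem (g : Gn) {n : ℕ} {P : Fm} (h : P ∈ Lin n) : act g P ∈ Lin n := by
  induction h using Submodule.span_induction with
  | mem P hP =>
    obtain ⟨c, w, k, rfl, rfl⟩ := hP
    rw [act_X]; exact gx_mem g c w k
  | zero => rw [map_zero]; exact zero_mem _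
  | add P Q _ _ hP hQ => rw [map_add]; exact add_mem hP hQ
  | smul z P _ hP => rw [Derivation.map_smul]; exact Submodule.smul_mem _ _ hP

/-- Induction along the words. -/
theorem lin_ind (p : Fm → Prop) (h0 : p 0) (ha : ∀ P Q, p P → p Q → p (P + Q))
    (hs : ∀ (z : ℤ) P, p P → p (z • P)) (hn : ∀ c k, p (X (c, [], k)))
    (hc : ∀ x Q, p Q → (∀ g, p (act g Q)) → p (nab x Q)) (v : Var) : p (X v) := by
  have : ∀ n, ∀ P ∈ Lin n, p P := by
    intro n
    induction n with
    | zero =>
      intro P h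
      induction h using Submodule.span_induction with
      | mem P hP =>
        obtain ⟨c, w, k, hw, rfl⟩ := hP
        obtain rfl := List.length_eq_zero_iff.1 hw
        exact hn c k
      | zero => exact h0
      | add P Q _ _ hP hQ => exact ha _ _ hP hQ
      | smul z P _ hP => exact hs _ _ hP
    | succ n ih =>
      intro P h
      induction h using Submodule.span_induction with
      | mem P hP =>
        obtain ⟨c, w, k, hw, rfl⟩ := hP
        obtain ⟨x, w, rfl⟩ := List.exists_cons_of_length_eq_add_one hw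
        obtain rfl : w.length = n := by simpa using hw
        rw [← nab_X]
        exact hc x _ (ih _ (X_mem c w k)) fun g => ih _ (act_mem g (X_mem c w k))
      | zero => exact h0
      | add P Q _ _ hP hQ => exact ha _ _ hP hQ
      | smul z P _ hP => exact hs _ _ hP
  exact this _ _ (X_mem v.1 v.2.1 v.2.2)

/-- The formal conjugation. -/
def cl (x : Lt) : Lt := (x.2, x.1)

def cg : Gn → Gn
  | F => Fb
  | E => Eb
  | H => Hb
  | Fb => F
  | Eb => E
  | Hb => H

noncomputable def cj : Fm →ₐ[ℤ] Fm := rename fun v : Var => (!v.1, v.2.1.map cl, v.2.2)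

theorem cj_X (c : Bool) (w : List Lt) (k : ℕ) : cj (X (c, w, k)) = X (!c, w.map cl, k) :=
  rename_X _ _

theorem cj_der {D D' : Derivation ℤ Fm Fm} (h : ∀ v, cj (D (X v)) = D' (cj (X v))) (P : Fm) :
    cj (D P) = D' (cj P) := by
  induction P using MvPolynomial.induction_on with
  | C a => simp [cj]
  | add P Q hP hQ => simp only [map_add, hP, hQ]
  | mul_X P v hP => simp only [dmul, map_add, map_mul, hP, h]

theorem cj_nab (x : Lt) (P : Fm) : cj (nab x P) = nab (cl x) (cj P) :=
  cj_der (fun ⟨c, w, k⟩ => by rw [nab_X, cj_X, cj_X, nab_X]; rfl) P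

theorem cj_act (g : Gn) (P : Fm) : cj (act g P) = act (cg g) (cj P) := by
  refine cj_der (fun ⟨c, w, k⟩ => ?_) P
  induction w with
  | nil =>
    rw [act_nil, cj_X, map_zsmul, cj_X, List.map_nil, act_nil]
    cases g <;> cases c <;> rfl
  | cons x w ih =>
    rw [← nab_X, act_nab, cj_nab, act_nab, map_add, map_zsmul, cj_nab, cj_nab, ih]
    cases g <;> rfl

variable {A : Type*} [CommRing A] [Algebra ℂ A] (G : GHP A)

/-- The derivative along a letter and the connection. -/
def Dl : Lt → Der A
  | (false, false) => G.th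
  | (true, true) => G.tp
  | (false, true) => G.et
  | (true, false) => G.ep

def Gam : Lt → Gn → A
  | (false, false), F => G.ka
  | (false, true), F => G.si
  | (true, false), F => G.rh
  | (true, true), F => G.ta
  | (false, false), E => G.ta'
  | (false, true), E => G.rh'
  | (true, false), E => G.si'
  | (true, true), E => G.ka'
  | (false, false), Fb => G.c G.ka
  | (false, true), Fb => G.c G.rh
  | (true, false), Fb => G.c G.si
  | (true, true), Fb => G.c G.ta
  | (false, false), Eb => G.c G.ta'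
  | (false, true), Eb => G.c G.si'
  | (true, false), Eb => G.c G.rh'
  | (true, true), Eb => G.c G.ka'
  | _, _ => 0

def Ps : ℕ → A
  | 0 => G.P0
  | 1 => G.P1
  | 2 => G.P2
  | 3 => G.P3
  | 4 => G.P4
  | _ => 0

/-- The connection term for a valuation. -/
noncomputable def cnV (V : Var → A) (x : Lt) (P : Fm) : A :=
  Gam G x F * aeval V (act F P) + Gam G x E * aeval V (act E P) +
    Gam G x Fb * aeval V (act Fb P) + Gam G x Eb * aeval V (act Eb P)

noncomputable def Vn : ℕ → Var → A
  | _, (false, [], k) => Ps G k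
  | _, (true, [], k) => G.c (Ps G k)
  | 0, (_, _ :: _, _) => 0
  | n + 1, (c, x :: w, k) => Dl G x (Vn n (c, w, k)) + cnV G (Vn n) x (X (c, w, k))

/-- The components of the jets of the Weyl spinor. -/
noncomputable def val (v : Var) : A := Vn G v.2.1.length v

noncomputable def ev : Fm →ₐ[ℤ] A := aeval (val G)

noncomputable def cn (x : Lt) (P : Fm) : A :=
  Gam G x F * ev G (act F P) + Gam G x E * ev G (act E P) +
    Gam G x Fb * ev G (act Fb P) + Gam G x Eb * ev G (act Eb P)

theorem ev_X (v : Var) : ev G (X v) = val G v := aeval_X _ _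
theorem val_nil (k : ℕ) : val G (false, [], k) = Ps G k := by simp only [val, Vn]
theorem val_nil' (k : ℕ) : val G (true, [], k) = G.c (Ps G k) := by simp only [val, Vn]

theorem aeval_Vn {n : ℕ} {P : Fm} (h : P ∈ Lin n) : aeval (Vn G n) P = ev G P := by
  induction h using Submodule.span_induction with
  | mem P hP =>
    obtain ⟨c, w, k, rfl, rfl⟩ := hP
    rw [aeval_X, ev_X]; rfl
  | zero => simp only [map_zero]
  | add P Q _ _ hP hQ => simp only [map_add, hP, hQ]
  | smul z P _ hP => simp only [map_zsmul, hP]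

theorem val_cons (c : Bool) (x : Lt) (w : List Lt) (k : ℕ) :
    val G (c, x :: w, k) = Dl G x (val G (c, w, k)) + cn G x (X (c, w, k)) := by
  simp only [val, List.length_cons, Vn, cnV, cn, aeval_Vn G (act_mem _ (X_mem c w k))]

/-- The master formula. -/
theorem ev_nab (x : Lt) (P : Fm) : ev G (nab x P) = Dl G x (ev G P) + cn G x P := by
  induction P using MvPolynomial.induction_on with
  | C a => simp [cn]
  | add P Q hP hQ => simp only [cn, map_add] at *; linear_combination hP + hQ
  | mul_X P v hP =>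
    obtain ⟨c, w, k⟩ := v
    have := val_cons G c x w k
    simp only [cn, dmul, map_add, map_mul, D_mul, nab_X, ev_X] at *
    linear_combination val G (c, w, k) * hP + ev G P * this

variable {G} (h : G.Is)
include h

theorem H_Dl (x : Lt) (f : A) : G.H (Dl G x f) = Dl G x (G.H f) + lc H x * Dl G x f := by
  obtain ⟨a, b⟩ := x
  cases a <;> cases b <;> simp [Dl, lc, h.H_th, h.H_tp, h.H_et, h.H_ep, sub_eq_add_neg]

theorem Hb_Dl (x : Lt) (f : A) : G.Hb (Dl G x f) = Dl G x (G.Hb f) + lc Hb x * Dl G x f := by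
  obtain ⟨a, b⟩ := x
  cases a <;> cases b <;> simp [Dl, lc, h.Hb_th, h.Hb_tp, h.Hb_et, h.Hb_ep, sub_eq_add_neg]

theorem H_Gam (x : Lt) (g : Gn) : G.H (Gam G x g) = (lc H x - bc H g) * Gam G x g := by
  obtain ⟨a, b⟩ := x
  cases a <;> cases b <;> cases g <;>
    simp [Gam, lc, bc, h.H_c, h.H_ka, h.H_si, h.H_rh, h.H_ta, h.H_ka', h.H_si', h.H_rh', h.H_ta',
      h.Hb_ka, h.Hb_si, h.Hb_rh, h.Hb_ta, h.Hb_ka', h.Hb_si', h.Hb_rh', h.Hb_ta'] <;> ring

theorem Hb_Gam (x : Lt) (g : Gn) : G.Hb (Gam G x g) = (lc Hb x - bc Hb g) * Gam G x g := by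
  obtain ⟨a, b⟩ := x
  cases a <;> cases b <;> cases g <;>
    simp [Gam, lc, bc, h.Hb_c, h.H_ka, h.H_si, h.H_rh, h.H_ta, h.H_ka', h.H_si', h.H_rh', h.H_ta',
      h.Hb_ka, h.Hb_si, h.Hb_rh, h.Hb_ta, h.Hb_ka', h.Hb_si', h.Hb_rh', h.Hb_ta', map_ofNat] <;>
    ring

theorem H_Ps (k : ℕ) : G.H (Ps G k) = (4 - 2 * k) * Ps G k := by
  match k with
  | 0 => simp [Ps, h.H_P0]
  | 1 => simp only [Ps, h.H_P1]; push_cast; ring
  | 2 => simp only [Ps, h.H_P2]; push_cast; ring
  | 3 => simp only [Ps, h.H_P3]; push_cast; ring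
  | 4 => simp only [Ps, h.H_P4]; push_cast; ring
  | k + 5 => simp [Ps]

theorem Hb_Ps (k : ℕ) : G.Hb (Ps G k) = 0 := by
  match k with
  | 0 => exact h.Hb_P0
  | 1 => exact h.Hb_P1
  | 2 => exact h.Hb_P2
  | 3 => exact h.Hb_P3
  | 4 => exact h.Hb_P4
  | k + 5 => simp [Ps]

omit h in
theorem ev_der (D : Der A) (D' : Derivation ℤ Fm Fm) (e : ∀ v, D (ev G (X v)) = ev G (D' (X v)))
    (P : Fm) : D (ev G P) = ev G (D' P) := by
  induction P using MvPolynomial.induction_on with
  | C a => simp
  | add P Q hP hQ => simp only [map_add, hP, hQ]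
  | mul_X P v hP => simp only [dmul, map_add, map_mul, D_mul, hP, e]

theorem H_ev (P : Fm) : G.H (ev G P) = ev G (act H P) := by
  refine ev_der _ _ (lin_ind (fun P => G.H (ev G P) = ev G (act H P)) (by simp)
    (fun P Q hP hQ => by simp only [map_add, hP, hQ])
    (fun z P hP => by simp only [map_zsmul, hP]) (fun c k => ?_) fun x Q hQ hg => ?_) P
  · rw [act_nil, map_zsmul, ev_X, ev_X]
    cases c
    · simp [val_nil, H_Ps h, wc, wt]
    · simp [val_nil', h.H_c, Hb_Ps h, wc]
  · simp only [act_nab, ev_nab, cn, map_add, map_mul, map_intCast, D_mul, H_Dl h, H_Gam h, hQ, hg,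
      act_act H F, act_act H E, act_act H Fb, act_act H Eb, lt, bg, zsmul_eq_mul]
    ring

theorem Hb_ev (P : Fm) : G.Hb (ev G P) = ev G (act Hb P) := by
  refine ev_der _ _ (lin_ind (fun P => G.Hb (ev G P) = ev G (act Hb P)) (by simp)
    (fun P Q hP hQ => by simp only [map_add, hP, hQ])
    (fun z P hP => by simp only [map_zsmul, hP]) (fun c k => ?_) fun x Q hQ hg => ?_) P
  · rw [act_nil, map_zsmul, ev_X, ev_X]
    cases c
    · simp [val_nil, Hb_Ps h, wc]
    · simp [val_nil', h.Hb_c, H_Ps h, wc, wt, map_ofNat]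
  · simp only [act_nab, ev_nab, cn, map_add, map_mul, map_intCast, D_mul, Hb_Dl h, Hb_Gam h, hQ,
      hg, act_act Hb F, act_act Hb E, act_act Hb Fb, act_act Hb Eb, lt, bg, zsmul_eq_mul]
    ring

theorem c_Dl (x : Lt) (f : A) : G.c (Dl G x f) = Dl G (cl x) (G.c f) := by
  obtain ⟨a, b⟩ := x
  cases a <;> cases b <;> simp only [Dl, cl, h.c_th, h.c_tp, h.c_et, h.c_ep]

theorem c_Gam (x : Lt) (g : Gn) : G.c (Gam G x g) = Gam G (cl x) (cg g) := by
  obtain ⟨a, b⟩ := x
  cases a <;> cases b <;> cases g <;> simp only [Gam, cl, cg, h.cc, map_zero]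

theorem c_ev (P : Fm) : G.c (ev G P) = ev G (cj P) := by
  have e := lin_ind (fun P => G.c (ev G P) = ev G (cj P)) (by simp)
    (fun P Q hP hQ => by simp only [map_add, hP, hQ])
    (fun z P hP => by simp only [map_zsmul, hP])
    (fun c k => by cases c <;> simp [cj_X, ev_X, val_nil, val_nil', h.cc])
    (fun x Q hQ hg => by
      have e1 := hg F
      have e2 := hg E
      have e3 := hg Fb
      have e4 := hg Eb
      simp only [cj_act, cg] at e1 e2 e3 e4
      simp only [cj_nab, ev_nab, cn, map_add, map_mul, c_Dl h, c_Gam h, hQ, e1, e2, e3, e4, cg]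
      ring)
  induction P using MvPolynomial.induction_on with
  | C a => simp [cj]
  | add P Q hP hQ => simp only [map_add, hP, hQ]
  | mul_X P v hP => simp only [map_mul, hP, e]

theorem c_val (c : Bool) (w : List Lt) (k : ℕ) :
    G.c (val G (c, w, k)) = val G (!c, w.map cl, k) := by
  rw [← ev_X, c_ev h, cj_X, ev_X]

end Vale.Agent.P354FA
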