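import Mathlib

/-!
The formal ring of the components of the covariant derivatives of the Weyl spinor. A letter is a
pair (unprimed index, primed index), false = o, true = iota: l = (false, false), n = (true, true),
m = (false, true), mb = (true, false). The variable (c, w, k) is the component number k of the
derivative along the word w of the Weyl spinor (c = false) or of its conjugate (c = true).
-/

namespace Vale.Agent.P354FA

open MvPolynomial

abbrev Lt := Bool × Bool
abbrev Var := Bool × List Lt × ℕ
abbrev Fm := MvPolynomial Var ℤ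

/-- The generators of the two copies of sl2. -/
inductive Gn
  | F | E | H | Fb | Eb | Hb
  deriving DecidableEq

open Gn

/-- The action on a letter: coefficient and target. -/
def lc : Gn → Lt → ℤ
  | F, x => if x.1 then 0 else 1
  | E, x => if x.1 then 1 else 0
  | H, x => if x.1 then -1 else 1
  | Fb, x => if x.2 then 0 else 1
  | Eb, x => if x.2 then 1 else 0
  | Hb, x => if x.2 then -1 else 1

def lt : Gn → Lt → Lt
  | F, x => (true, x.2)
  | E, x => (false, x.2)
  | H, x => x
  | Fb, x => (x.1, true)
  | Eb, x => (x.1, false)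
  | Hb, x => x

/-- The action on the index of the Weyl spinor: coefficient and target. -/
def wc : Gn → Bool → ℕ → ℤ
  | F, false, k => 4 - k
  | E, false, k => k
  | H, false, k => 4 - 2 * k
  | Fb, true, k => 4 - k
  | Eb, true, k => k
  | Hb, true, k => 4 - 2 * k
  | _, _, _ => 0

def wt : Gn → ℕ → ℕ
  | F, k => k + 1
  | E, k => k - 1
  | H, k => k
  | Fb, k => k + 1
  | Eb, k => k - 1
  | Hb, k => k

/-- The formal covariant derivative. -/
noncomputable def nab (x : Lt) : Derivation ℤ Fm Fm :=
  mkDerivation ℤ fun v : Var => (X (v.1, x :: v.2.1, v.2.2) : Fm)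

theorem nab_X (x : Lt) (c : Bool) (w : List Lt) (k : ℕ) :
    nab x (X (c, w, k)) = X (c, x :: w, k) := mkDerivation_X _ _ _

noncomputable def gx (g : Gn) (c : Bool) : List Lt → ℕ → Fm
  | [], k => wc g c k • X (c, [], wt g k)
  | x :: w, k => lc g x • X (c, lt g x :: w, k) + nab x (gx g c w k)

/-- The action of a generator. -/
noncomputable def act (g : Gn) : Derivation ℤ Fm Fm :=
  mkDerivation ℤ fun v : Var => gx g v.1 v.2.1 v.2.2

theorem act_X (g : Gn) (c : Bool) (w : List Lt) (k : ℕ) : act g (X (c, w, k)) = gx g c w k :=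
  mkDerivation_X _ _ _

theorem act_nil (g : Gn) (c : Bool) (k : ℕ) :
    act g (X (c, [], k)) = wc g c k • X (c, [], wt g k) := act_X g c [] k

theorem dmul (D : Derivation ℤ Fm Fm) (P Q : Fm) : D (P * Q) = P * D Q + Q * D P := by
  rw [Derivation.leibniz, smul_eq_mul, smul_eq_mul]

theorem act_nab (g : Gn) (x : Lt) (P : Fm) :
    act g (nab x P) = nab x (act g P) + lc g x • nab (lt g x) P := by
  have : ⁅act g, nab x⁆ = lc g x • nab (lt g x) := by
    refine derivation_ext fun v => ?_
    obtain ⟨c, w, k⟩ := v
    rw [Derivation.commutator_apply, nab_X, act_X, act_X, gx, Derivation.smul_apply, nab_X]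
    abel
  have e := congrArg (fun D : Derivation ℤ Fm Fm => D P) this
  simp only [Derivation.commutator_apply, Derivation.smul_apply] at e
  rw [← e]; abel

/-- A derivation which commutes with the covariant derivatives and kills the Weyl spinor. -/
theorem eq_zero_of (K : Derivation ℤ Fm Fm) (h0 : ∀ c k, K (X (c, [], k)) = 0)
    (h : ∀ x P, K (nab x P) = nab x (K P)) : K = 0 := by
  refine derivation_ext fun v => ?_
  obtain ⟨c, w, k⟩ := v
  rw [Derivation.zero_apply]
  induction w with
  | nil => exact h0 c k
  | cons x w ih => rw [← nab_X, h, ih, map_zero]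

/-- The structure constants. -/
def bc : Gn → Gn → ℤ
  | F, E => -1
  | E, F => 1
  | H, F => -2
  | F, H => 2
  | H, E => 2
  | E, H => -2
  | Fb, Eb => -1
  | Eb, Fb => 1
  | Hb, Fb => -2
  | Fb, Hb => 2
  | Hb, Eb => 2
  | Eb, Hb => -2
  | _, _ => 0

def bg : Gn → Gn → Gn
  | F, E => H
  | E, F => H
  | Fb, Eb => Hb
  | Eb, Fb => Hb
  | F, H => F
  | E, H => E
  | Fb, Hb => Fb
  | Eb, Hb => Eb
  | _, h => h

theorem br_nil (g h : Gn) (c : Bool) (k : ℕ) :
    (wc h c k * wc g c (wt h k)) • (X (c, [], wt g (wt h k)) : Fm) -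
      (wc g c k * wc h c (wt g k)) • X (c, [], wt h (wt g k)) =
      (bc g h * wc (bg g h) c k) • X (c, [], wt (bg g h) k) := by
  cases k with
  | zero =>
    cases g <;> cases h <;> cases c <;>
      simp only [wc, wt, bc, bg, Nat.zero_add, Nat.reduceAdd, Nat.reduceSub, Nat.zero_sub,
        Nat.cast_zero, Nat.cast_one] <;> module
  | succ k =>
    cases g <;> cases h <;> cases c <;>
      simp only [wc, wt, bc, bg, Nat.add_sub_cancel, Nat.cast_add, Nat.cast_one] <;> module

theorem br_let (g h : Gn) (x : Lt) (P : Fm) :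
    (lc h x * lc g (lt h x)) • nab (lt g (lt h x)) P -
      (lc g x * lc h (lt g x)) • nab (lt h (lt g x)) P =
      (bc g h * lc (bg g h) x) • nab (lt (bg g h) x) P := by
  obtain ⟨a, b⟩ := x
  cases g <;> cases h <;> cases a <;> cases b <;>
    simp only [lc, lt, bc, bg, if_true, if_false, Bool.false_eq_true] <;> module

/-- The commutation relations. -/
theorem act_act (g h : Gn) (P : Fm) :
    act g (act h P) = act h (act g P) + bc g h • act (bg g h) P := by
  have : ⁅act g, act h⁆ - bc g h • act (bg g h) = 0 := by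
    refine eq_zero_of _ (fun c k => ?_) fun x P => ?_
    · have := br_nil g h c k
      simp only [Derivation.sub_apply, Derivation.commutator_apply, Derivation.smul_apply,
        act_nil, Derivation.map_smul, smul_smul]
      rw [this, sub_self]
    · have := br_let g h x P
      simp only [Derivation.sub_apply, Derivation.commutator_apply, Derivation.smul_apply,
        act_nab, Derivation.map_smul, map_add, map_sub, smul_add, smul_smul]
      rw [← this]; abel
  have e := congrArg (fun D : Derivation ℤ Fm Fm => D P) this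
  simp only [Derivation.sub_apply, Derivation.commutator_apply, Derivation.smul_apply,
    Derivation.zero_apply] at e
  linear_combination e

/-- The curvature of the spin connection. -/
noncomputable def Ru (s : ℕ) (P : Fm) : Fm :=
  X (false, [], s) * act F P - X (false, [], s + 1) * act H P - X (false, [], s + 2) * act E P

noncomputable def Rb (s : ℕ) (P : Fm) : Fm :=
  X (true, [], s) * act Fb P - X (true, [], s + 1) * act Hb P - X (true, [], s + 2) * act Eb P

def eps : Bool → Bool → ℤ
  | false, true => 1
  | true, false => -1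
  | _, _ => 0

noncomputable def Rf (x y : Lt) (P : Fm) : Fm :=
  eps x.2 y.2 • Ru (x.1.toNat + y.1.toNat) P + eps x.1 y.1 • Rb (x.2.toNat + y.2.toNat) P

def rc : Gn → Bool → ℕ → ℤ
  | F, false, s => 2 - s
  | E, false, s => s
  | H, false, s => 2 - 2 * s
  | Fb, true, s => 2 - s
  | Eb, true, s => s
  | Hb, true, s => 2 - 2 * s
  | _, _, _ => 0

theorem act_Ru (g : Gn) (s : ℕ) (P : Fm) :
    act g (Ru s P) = Ru s (act g P) + rc g false s • Ru (wt g s) P := by
  simp only [Ru, map_sub, dmul, act_nil, act_act g F, act_act g H, act_act g E]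
  cases s with
  | zero => cases g <;> simp [wc, wt, bc, bg, rc] <;> ring
  | succ s =>
    cases g <;> simp only [wc, wt, bc, bg, rc, Nat.add_sub_cancel, zsmul_eq_mul,
      show s + 1 + 2 - 1 = s + 2 from rfl, show s + 1 + 1 = s + 2 from rfl,
      show s + 2 - 1 = s + 1 from rfl, show s + 2 + 1 = s + 1 + 2 from rfl,
      show s + 1 + 2 + 1 = s + 2 + 2 from rfl] <;> push_cast <;> ring

theorem act_Rb (g : Gn) (s : ℕ) (P : Fm) :
    act g (Rb s P) = Rb s (act g P) + rc g true s • Rb (wt g s) P := by
  simp only [Rb, map_sub, dmul, act_nil, act_act g Fb, act_act g Hb, act_act g Eb]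
  cases s with
  | zero => cases g <;> simp [wc, wt, bc, bg, rc] <;> ring
  | succ s =>
    cases g <;> simp only [wc, wt, bc, bg, rc, Nat.add_sub_cancel, zsmul_eq_mul,
      show s + 1 + 2 - 1 = s + 2 from rfl, show s + 1 + 1 = s + 2 from rfl,
      show s + 2 - 1 = s + 1 from rfl, show s + 2 + 1 = s + 1 + 2 from rfl,
      show s + 1 + 2 + 1 = s + 2 + 2 from rfl] <;> push_cast <;> ring

theorem act_Rf (g : Gn) (x y : Lt) (P : Fm) : act g (Rf x y P) =
    Rf x y (act g P) + lc g x • Rf (lt g x) y P + lc g y • Rf x (lt g y) P := by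
  obtain ⟨a, b⟩ := x
  obtain ⟨c, d⟩ := y
  simp only [Rf, map_add, Derivation.map_smul, act_Ru, act_Rb]
  cases g <;> cases a <;> cases b <;> cases c <;> cases d <;>
    simp only [eps, lc, lt, rc, wt, if_true, if_false, Bool.false_eq_true, Bool.toNat_true,
      Bool.toNat_false, Nat.zero_add, Nat.add_zero, Nat.reduceAdd, Nat.reduceSub, Nat.zero_sub,
      Nat.cast_zero, Nat.cast_one, Nat.cast_ofNat] <;> module

/-- The commutator relation. -/
noncomputable def Com (x y : Lt) (P : Fm) : Fm := nab x (nab y P) - nab y (nab x P) - Rf x y P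

theorem act_Com (g : Gn) (x y : Lt) (P : Fm) : act g (Com x y P) =
    Com x y (act g P) + lc g x • Com (lt g x) y P + lc g y • Com x (lt g y) P := by
  simp only [Com, map_sub, act_nab, act_Rf, map_add, Derivation.map_smul]
  module

/-- The Bianchi relation. -/
noncomputable def Bia (y : Bool) (k : ℕ) : Fm :=
  X (false, [(true, y)], k) - X (false, [(false, y)], k + 1)

def bic : Gn → Bool → ℕ → ℤ
  | F, _, k => 3 - k
  | E, _, k => k
  | H, _, k => 3 - 2 * k
  | g, y, _ => lc g (false, y)

def bik : Gn → ℕ → ℕ
  | F, k => k + 1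
  | E, k => k - 1
  | _, k => k

theorem act_Bia (g : Gn) (y : Bool) (k : ℕ) :
    act g (Bia y k) = bic g y k • Bia (lt g (false, y)).2 (bik g k) := by
  simp only [Bia, map_sub, act_X, gx, Derivation.map_smul, nab_X]
  cases k with
  | zero =>
    cases g <;> cases y <;> simp only [wc, wt, lc, lt, bic, bik, Nat.zero_add, Nat.reduceAdd,
      Nat.reduceSub, Nat.zero_sub, Nat.cast_zero, Nat.cast_one, if_true, if_false,
      Bool.false_eq_true] <;> module
  | succ k =>
    cases g <;> cases y <;> simp only [wc, wt, lc, lt, bic, bik, Nat.add_sub_cancel, Nat.cast_add,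
      Nat.cast_one, if_true, if_false, Bool.false_eq_true] <;> module

end Vale.Agent.P354FA
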