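import Vale.Agent.P354FA.Hat

/-! The jets of the reference solution are symbols. -/

noncomputable section

namespace Vale.Agent.P354FA

open MvPolynomial Gn
open Vale.Agent.P354XG (Der GHP D_mul D_add D_sub D_zero D_neg D_one)
open Vale.Agent.P354XZ hiding Lt
open Vale.Agent.P354XZ.NF (nz)
open Vale.Agent.P354YF

variable {A : Type} [CommRing A] [Algebra ℂ A] {C : Ch A} {N0 : NF A} {t : Fin 4 → A}

/-- The flat connection, as a multiple of 1 / r. -/
def fl : Lt → Gn → ℤ
  | (false, true), E => 1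
  | (false, true), Fb => -1
  | (true, false), F => -1
  | (true, false), Eb => 1
  | _, _ => 0

theorem sy_int (h : C.Is) (z : ℤ) : C.Sy 0 (z : A) := by simpa using sy_alg h z

theorem sy_zmul (h : C.Is) (z : ℤ) {a : ℝ} {f : A} (s : C.Sy a f) : C.Sy a (z * f) :=
  sy_mul' h (sy_int h z) s (zero_add a).ge

theorem sy_vf (h : C.Is) {b : Fin 5 → A} (b1 : C.Sy 0 (b 1)) (b2 : C.Sy 1 (b 2))
    (b3 : C.Sy 1 (b 3)) (b4 : C.Sy 1 (b 4)) {a : ℝ} {f : A} (s : C.Sy a f) :
    C.Sy (a + 1) (C.vf b f) := by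
  rw [vf_ap, s.1, mul_zero, zero_add]
  exact sy_add (sy_add (sy_add (sy_mul' h b1 (sy_R h s) (zero_add _).ge)
    (sy_mul' h b2 (sy_an h 0 s) (add_comm _ _).le)) (sy_mul' h b3 (sy_an h 1 s) (add_comm _ _).le))
    (sy_mul' h b4 (sy_an h 2 s) (add_comm _ _).le)

variable (h : C.Is) (r : N0.Ref C t) (j : C.J)
include r

theorem J0_nil (c : Bool) {k : ℕ} (hk : k ≠ 2) : Jh C N0 c [] k = 0 := by
  obtain ⟨-, -, -, e0, e1, e3, e4⟩ := r.zero
  have : Ps N0.G k = 0 := by
    match k with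
    | 0 => exact e0
    | 1 => exact e1
    | 2 => exact absurd rfl hk
    | 3 => exact e3
    | 4 => exact e4
    | k + 5 => rfl
  cases c <;> simp [Jh, val_nil, val_nil', this]

include h j

theorem sy_Gh (x : Lt) (g : Gn) : C.Sy 2 (Gh C N0 x g - fl x g * C.ri) := by
  obtain ⟨e1, e2, e3, -⟩ := r.zero
  have e4 := r.is.ka
  have a1 := r.gb.2.2.1
  have a2 := r.gb.2.2.2
  have a3 := r.rh.1
  have a4 := r.rh.2
  have b1 := sy_c h j a1
  have b2 := sy_c h j a2
  have b3 := sy_c h j a3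
  have b4 := sy_c h j a4
  simp only [map_add, map_sub, map_mul, c_nz h, c_ri h] at b3 b4
  obtain ⟨a, b⟩ := x
  cases a <;> cases b <;> cases g <;>
    simp [Gh, Gam, fl, bx, sh, e1, e2, e3, e4, r.is.c_eq, nz_zero, sy_zero, a1, a2, a3, a4, b1, b2,
      b3, b4]

theorem sy_Gh1 (x : Lt) (g : Gn) : C.Sy 1 (Gh C N0 x g) := by
  have := sy_add (sy_mono h one_le_two (sy_Gh h r j x g)) (sy_zmul h (fl x g) (sy_ri h))
  rwa [sub_add_cancel] at this

theorem sy_gm (x : Lt) : C.Sy 2 (gm C N0 x) := by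
  match x with
  | (false, false) => exact sy_zero
  | (true, true) => exact r.gb.1
  | (false, true) => exact r.gb.2.1
  | (true, false) => exact sy_c h j r.gb.2.1

theorem sy_Eh (x : Lt) {a : ℝ} {f : A} (s : C.Sy a f) : C.Sy (a + 1) (Eh C N0 x f) := by
  have m3 : C.Sy 1 (N0.mc 3) := by
    simpa using sy_add (sy_mono h one_le_two r.ma.2.1) (sy_ri h)
  have m1 := sy_mono h zero_le_one r.m0.2
  have m2 := sy_mono h one_le_two r.ma.1
  have m4 := sy_mono h one_le_two r.ma.2.2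
  match x with
  | (false, false) => exact sy_R h s
  | (true, true) =>
    exact sy_vf h (by simpa using sy_sub (sy_mono h zero_le_one r.n1) (sy_one h))
      (sy_mono h one_le_two r.na.1) (sy_mono h one_le_two r.na.2.1)
      (sy_mono h one_le_two r.na.2.2) s
  | (false, true) => exact sy_vf h m1 m2 m3 m4 s
  | (true, false) =>
    exact sy_vf (b := C.cj N0.mc) h (sy_c h j m1) (sy_c h j m3) (sy_c h j m2)
      (sy_neg (sy_c h j m4)) s

theorem sy_ofFn (s : ℕ) (c : Bool) (v : Fin s → Lt) (k : ℕ) :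
    C.Sy (3 + s) (Jh C N0 c (List.ofFn v) k) := by
  induction s generalizing k with
  | zero =>
    rw [List.ofFn_zero, Nat.cast_zero, add_zero]
    by_cases hk : k = 2
    · have := sy_c h j r.P2
      cases c <;> simp [hk, Jh, val_nil, val_nil', Ps, bw, bl, nz_zero, r.P2, r.is.c_eq, this]
    · rw [J0_nil r c hk]; exact sy_zero
  | succ s ih =>
    have a : ∀ g, C.Sy (3 + s + 1) (Gh C N0 (v 0) g * Ah C N0 g c (List.ofFn fun i => v i.succ) k) :=
      fun g => sy_mul' h (sy_Gh1 h r j _ g) (by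
        rw [Ah_eq]
        exact sy_add (sy_zmul h _ (ih _ _)) (sy_sum _ fun _ _ => sy_zmul h _ (ih _ _)))
        (add_comm _ _).le
    have e := hat h r.is j (v 0) c (List.ofFn fun i => v i.succ) k
    rw [List.ofFn_succ, Nat.cast_succ, ← add_assoc,
      sub_eq_iff_eq_add.1 (sub_eq_iff_eq_add.1 e.symm), mul_assoc]
    exact sy_add (sy_add (sy_Eh h r j _ (ih _ _)) (sy_zmul h _ (sy_mul' h (sy_gm h r j _) (ih _ _)
      (by linarith)))) (sy_add (sy_add (sy_add (a F) (a E)) (a Fb)) (a Eb))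

theorem sy_Jh (c : Bool) (w : List Lt) (k : ℕ) : C.Sy (3 + w.length) (Jh C N0 c w k) := by
  have := sy_ofFn h r j _ c w.get k
  rwa [List.ofFn_get] at this

end Vale.Agent.P354FA
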