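import Vale.Agent.P354FA.Hat

/-! The empty word. -/

namespace Vale.Agent.P354FA

open Vale.Agent.P354XZ hiding Lt

variable {A : Type} [CommRing A] [Algebra ℂ A] (C : Ch A) (N N0 : NF A)

theorem Jh_nil (i : Fin 5) : Jh C N false [] i = NF.nw C N.W i := by
  fin_cases i <;> simp [Jh, val_nil, bw, bl, Ps, NF.nw, NF.W]

theorem Vw_nil : Vw N N0 C [] = (N.df N0 C).V := by
  funext i
  rw [Vw, Jh_nil, Jh_nil]; rfl

end Vale.Agent.P354FA
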