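import Vale.Agent.P354FA.Ev

/-! The commutator relations and the Bianchi relations hold for the values. -/

namespace Vale.Agent.P354FA

open MvPolynomial Gn
open Vale.Agent.P354XG (Der GHP D_mul D_add D_sub D_zero D_neg)

theorem Com_swap (x y : Lt) (P : Fm) : Com y x P = -Com x y P := by
  obtain ⟨a, b⟩ := x
  obtain ⟨c, d⟩ := y
  simp only [Com, Rf]
  cases a <;> cases b <;> cases c <;> cases d <;>
    simp only [eps, Bool.toNat_true, Bool.toNat_false, Nat.zero_add, Nat.add_zero,
      Nat.reduceAdd] <;> module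

theorem Com_self (x : Lt) (P : Fm) : Com x x P = 0 := by
  obtain ⟨a, b⟩ := x
  cases a <;> cases b <;> simp [Com, Rf, eps]

variable {A : Type*} [CommRing A] [Algebra ℂ A] {G : GHP A} (h : G.Is)
include h

theorem com_ln (P : Fm) : ev G (Com (false, false) (true, true) P) = 0 := by
  have e := h.th_tp (ev G P)
  have e1 := congrArg G.c h.r3
  have e2 := congrArg G.c h.r3'
  simp only [map_add, map_sub, map_mul, h.c_th, h.c_tp, h.cc] at e1 e2
  rw [H_ev h, Hb_ev h] at e
  simp only [Com, Rf, Ru, Rb, eps, map_sub, map_add, map_mul, map_intCast, zsmul_eq_mul, ev_nab,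
    act_nab, cn, D_mul, D_add, act_act E F, act_act Fb F, act_act Eb F, act_act Fb E,
    act_act Eb E, act_act Eb Fb, bc, bg, lc, lt, Dl, Gam, ev_X, val_nil, val_nil', Ps,
    Bool.toNat_true, Bool.toNat_false, Nat.zero_add, Nat.add_zero, Nat.reduceAdd, if_true,
    if_false, Bool.false_eq_true, Int.cast_one, Int.cast_zero, Int.cast_neg, map_one, map_zero,
    map_neg]
  linear_combination e + ev G (act F P) * h.r3 - ev G (act E P) * h.r3' +
    ev G (act Fb P) * e1 - ev G (act Eb P) * e2

theorem com_lm (P : Fm) : ev G (Com (false, false) (false, true) P) = 0 := by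
  have e := h.th_et (ev G P)
  have e1 := congrArg G.c h.r1
  have e2 := congrArg G.c h.r5'
  simp only [map_add, map_sub, map_mul, map_pow, h.c_th, h.c_ep, h.cc] at e1 e2
  rw [H_ev h, Hb_ev h] at e
  simp only [Com, Rf, Ru, Rb, eps, map_sub, map_add, map_mul, map_intCast, zsmul_eq_mul, ev_nab,
    act_nab, cn, D_mul, D_add, act_act E F, act_act Fb F, act_act Eb F, act_act Fb E,
    act_act Eb E, act_act Eb Fb, bc, bg, lc, lt, Dl, Gam, ev_X, val_nil, val_nil', Ps,
    Bool.toNat_true, Bool.toNat_false, Nat.zero_add, Nat.add_zero, Nat.reduceAdd, if_true,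
    if_false, Bool.false_eq_true, Int.cast_one, Int.cast_zero, Int.cast_neg, map_one, map_zero,
    map_neg]
  linear_combination e + ev G (act F P) * h.r2 - ev G (act E P) * h.r6' +
    ev G (act Fb P) * e1 - ev G (act Eb P) * e2

theorem com_lb (P : Fm) : ev G (Com (false, false) (true, false) P) = 0 := by
  have e := h.th_ep (ev G P)
  have e1 := congrArg G.c h.r2
  have e2 := congrArg G.c h.r6'
  simp only [map_add, map_sub, map_mul, h.c_th, h.c_et, h.cc] at e1 e2
  rw [H_ev h, Hb_ev h] at e
  simp only [Com, Rf, Ru, Rb, eps, map_sub, map_add, map_mul, map_intCast, zsmul_eq_mul, ev_nab,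
    act_nab, cn, D_mul, D_add, act_act E F, act_act Fb F, act_act Eb F, act_act Fb E,
    act_act Eb E, act_act Eb Fb, bc, bg, lc, lt, Dl, Gam, ev_X, val_nil, val_nil', Ps,
    Bool.toNat_true, Bool.toNat_false, Nat.zero_add, Nat.add_zero, Nat.reduceAdd, if_true,
    if_false, Bool.false_eq_true, Int.cast_one, Int.cast_zero, Int.cast_neg, map_one, map_zero,
    map_neg]
  linear_combination e + ev G (act F P) * h.r1 - ev G (act E P) * h.r5' +
    ev G (act Fb P) * e1 - ev G (act Eb P) * e2

theorem com_nm (P : Fm) : ev G (Com (true, true) (false, true) P) = 0 := by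
  have e := h.tp_et (ev G P)
  have e1 := congrArg G.c h.r6
  have e2 := congrArg G.c h.r2'
  simp only [map_add, map_sub, map_mul, h.c_tp, h.c_ep, h.cc] at e1 e2
  rw [H_ev h, Hb_ev h] at e
  simp only [Com, Rf, Ru, Rb, eps, map_sub, map_add, map_mul, map_intCast, zsmul_eq_mul, ev_nab,
    act_nab, cn, D_mul, D_add, act_act E F, act_act Fb F, act_act Eb F, act_act Fb E,
    act_act Eb E, act_act Eb Fb, bc, bg, lc, lt, Dl, Gam, ev_X, val_nil, val_nil', Ps,
    Bool.toNat_true, Bool.toNat_false, Nat.zero_add, Nat.add_zero, Nat.reduceAdd, if_true,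
    if_false, Bool.false_eq_true, Int.cast_one, Int.cast_zero, Int.cast_neg, map_one, map_zero,
    map_neg]
  linear_combination e - ev G (act F P) * h.r5 + ev G (act E P) * h.r1' -
    ev G (act Fb P) * e1 + ev G (act Eb P) * e2

theorem com_nb (P : Fm) : ev G (Com (true, true) (true, false) P) = 0 := by
  have e := h.tp_ep (ev G P)
  have e1 := congrArg G.c h.r5
  have e2 := congrArg G.c h.r1'
  simp only [map_add, map_sub, map_mul, map_pow, h.c_tp, h.c_et, h.cc] at e1 e2
  rw [H_ev h, Hb_ev h] at e
  simp only [Com, Rf, Ru, Rb, eps, map_sub, map_add, map_mul, map_intCast, zsmul_eq_mul, ev_nab,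
    act_nab, cn, D_mul, D_add, act_act E F, act_act Fb F, act_act Eb F, act_act Fb E,
    act_act Eb E, act_act Eb Fb, bc, bg, lc, lt, Dl, Gam, ev_X, val_nil, val_nil', Ps,
    Bool.toNat_true, Bool.toNat_false, Nat.zero_add, Nat.add_zero, Nat.reduceAdd, if_true,
    if_false, Bool.false_eq_true, Int.cast_one, Int.cast_zero, Int.cast_neg, map_one, map_zero,
    map_neg]
  linear_combination e - ev G (act F P) * h.r6 + ev G (act E P) * h.r2' -
    ev G (act Fb P) * e1 + ev G (act Eb P) * e2

theorem com_mb (P : Fm) : ev G (Com (false, true) (true, false) P) = 0 := by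
  have e := h.et_ep (ev G P)
  have e1 := congrArg G.c h.r4
  have e2 := congrArg G.c h.r4'
  simp only [map_add, map_sub, map_mul, h.c_et, h.c_ep, h.cc] at e1 e2
  rw [H_ev h, Hb_ev h] at e
  simp only [Com, Rf, Ru, Rb, eps, map_sub, map_add, map_mul, map_intCast, zsmul_eq_mul, ev_nab,
    act_nab, cn, D_mul, D_add, act_act E F, act_act Fb F, act_act Eb F, act_act Fb E,
    act_act Eb E, act_act Eb Fb, bc, bg, lc, lt, Dl, Gam, ev_X, val_nil, val_nil', Ps,
    Bool.toNat_true, Bool.toNat_false, Nat.zero_add, Nat.add_zero, Nat.reduceAdd, if_true,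
    if_false, Bool.false_eq_true, Int.cast_one, Int.cast_zero, Int.cast_neg, map_one, map_zero,
    map_neg]
  linear_combination e + ev G (act F P) * h.r4 - ev G (act E P) * h.r4' -
    ev G (act Fb P) * e1 + ev G (act Eb P) * e2

theorem ev_Com (x y : Lt) (P : Fm) : ev G (Com x y P) = 0 := by
  have sw : ∀ x y, ev G (Com x y P) = 0 → ev G (Com y x P) = 0 := fun x y e => by
    rw [Com_swap, map_neg, e, neg_zero]
  have sf : ∀ x, ev G (Com x x P) = 0 := fun x => by rw [Com_self, map_zero]
  match x, y with
  | (false, false), (false, false) => exact sf _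
  | (false, false), (false, true) => exact com_lm h P
  | (false, false), (true, false) => exact com_lb h P
  | (false, false), (true, true) => exact com_ln h P
  | (false, true), (false, false) => exact sw _ _ (com_lm h P)
  | (false, true), (false, true) => exact sf _
  | (false, true), (true, false) => exact com_mb h P
  | (false, true), (true, true) => exact sw _ _ (com_nm h P)
  | (true, false), (false, false) => exact sw _ _ (com_lb h P)
  | (true, false), (false, true) => exact sw _ _ (com_mb h P)
  | (true, false), (true, false) => exact sf _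
  | (true, false), (true, true) => exact sw _ _ (com_nb h P)
  | (true, true), (false, false) => exact sw _ _ (com_ln h P)
  | (true, true), (false, true) => exact com_nm h P
  | (true, true), (true, false) => exact com_nb h P
  | (true, true), (true, true) => exact sf _

theorem ev_Bia (y : Bool) {k : ℕ} (hk : k ≤ 3) : ev G (Bia y k) = 0 := by
  rw [Bia, ← nab_X, ← nab_X]
  simp only [map_sub, ev_nab, cn, act_nil, zsmul_eq_mul, map_mul, map_intCast, ev_X, val_nil, wc,
    wt]
  cases y <;> interval_cases k <;> simp only [Dl, Gam, Ps, Nat.reduceAdd, Nat.reduceSub] <;>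
    push_cast
  · linear_combination -h.b1
  · linear_combination -h.b2
  · linear_combination -h.b3
  · linear_combination -h.b4
  · linear_combination h.b4'
  · linear_combination h.b3'
  · linear_combination h.b2'
  · linear_combination h.b1'

omit h

/-- Iterated actions. -/
noncomputable def acts : List Gn → Fm → Fm
  | [], P => P
  | g :: gs, P => acts gs (act g P)

theorem acts_add (gs : List Gn) (P Q : Fm) : acts gs (P + Q) = acts gs P + acts gs Q := by
  induction gs generalizing P Q with
  | nil => rfl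
  | cons g gs ih => simp only [acts, map_add, ih]

theorem acts_smul (gs : List Gn) (z : ℤ) (P : Fm) : acts gs (z • P) = z • acts gs P := by
  induction gs generalizing P with
  | nil => rfl
  | cons g gs ih => simp only [acts, Derivation.map_smul, ih]

theorem acts_snoc (gs : List Gn) (g : Gn) (P : Fm) : act g (acts gs P) = acts (gs ++ [g]) P := by
  induction gs generalizing P with
  | nil => rfl
  | cons g' gs ih => simp only [acts, List.cons_append, ih]

/-- The relations: the forms whose values vanish together with the values of their orbit. -/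
noncomputable def Nl (G : GHP A) : Submodule ℤ Fm where
  carrier := {P | ∀ gs, ev G (acts gs P) = 0}
  add_mem' := fun hP hQ gs => by rw [acts_add, map_add, hP gs, hQ gs, add_zero]
  zero_mem' := fun gs => by rw [← zero_smul ℤ (0 : Fm), acts_smul, zero_smul, map_zero]
  smul_mem' := fun z P hP gs => by rw [acts_smul, map_zsmul, hP gs, smul_zero]

theorem Nl.ev {P : Fm} (hP : P ∈ Nl G) : ev G P = 0 := hP []
theorem Nl.act {P : Fm} (hP : P ∈ Nl G) (g : Gn) : act g P ∈ Nl G := fun gs => hP (g :: gs)

/-- A family which is stable under the action and has vanishing values. -/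
theorem mem_Nl (S : Set Fm) (h0 : ∀ P ∈ S, ev G P = 0)
    (ha : ∀ g, ∀ P ∈ S, act g P ∈ Submodule.span ℤ S) {P : Fm} (hP : P ∈ S) : P ∈ Nl G := by
  have a : ∀ g, ∀ P ∈ Submodule.span ℤ S, act g P ∈ Submodule.span ℤ S := by
    intro g P hP
    induction hP using Submodule.span_induction with
    | mem P hP => exact ha g P hP
    | zero => rw [map_zero]; exact zero_mem _
    | add P Q _ _ hP hQ => rw [map_add]; exact add_mem hP hQ
    | smul z P _ hP => rw [Derivation.map_smul]; exact Submodule.smul_mem _ _ hP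
  have b : ∀ P ∈ Submodule.span ℤ S, ev G P = 0 := by
    intro P hP
    induction hP using Submodule.span_induction with
    | mem P hP => exact h0 P hP
    | zero => exact map_zero _
    | add P Q _ _ hP hQ => rw [map_add, hP, hQ, add_zero]
    | smul z P _ hP => rw [map_zsmul, hP, smul_zero]
  have c : ∀ gs, ∀ P ∈ Submodule.span ℤ S, acts gs P ∈ Submodule.span ℤ S := by
    intro gs
    induction gs with
    | nil => exact fun P hP => hP
    | cons g gs ih => exact fun P hP => ih _ (a g P hP)
  exact fun gs => b _ (c gs P (Submodule.subset_span hP))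

theorem Nl.nab {P : Fm} (hP : P ∈ Nl G) (x : Lt) : nab x P ∈ Nl G := by
  refine mem_Nl {Q | ∃ x, ∃ P ∈ Nl G, Q = P354FA.nab x P} ?_ ?_ ⟨x, P, hP, rfl⟩
  · rintro _ ⟨x, P, hP, rfl⟩
    simp only [ev_nab, cn, Nl.ev hP, Nl.ev (Nl.act hP _), D_zero, mul_zero, add_zero]
  · rintro g _ ⟨x, P, hP, rfl⟩
    rw [act_nab]
    exact add_mem (Submodule.subset_span ⟨x, _, Nl.act hP g, rfl⟩)
      (Submodule.smul_mem _ _ (Submodule.subset_span ⟨_, P, hP, rfl⟩))

include h

theorem Com_mem (x y : Lt) (P : Fm) : Com x y P ∈ Nl G := by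
  refine mem_Nl {Q | ∃ x y P, Q = Com x y P} ?_ ?_ ⟨x, y, P, rfl⟩
  · rintro _ ⟨x, y, P, rfl⟩
    exact ev_Com h x y P
  · rintro g _ ⟨x, y, P, rfl⟩
    rw [act_Com]
    exact add_mem (add_mem (Submodule.subset_span ⟨x, y, _, rfl⟩)
      (Submodule.smul_mem _ _ (Submodule.subset_span ⟨_, y, P, rfl⟩)))
      (Submodule.smul_mem _ _ (Submodule.subset_span ⟨x, _, P, rfl⟩))

theorem Bia_mem (y : Bool) {k : ℕ} (hk : k ≤ 3) : Bia y k ∈ Nl G := by
  refine mem_Nl {Q | ∃ y k, k ≤ 3 ∧ Q = Bia y k} ?_ ?_ ⟨y, k, hk, rfl⟩
  · rintro _ ⟨y, k, hk, rfl⟩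
    exact ev_Bia h y hk
  · rintro g _ ⟨y, k, hk, rfl⟩
    rw [act_Bia]
    by_cases e : bik g k ≤ 3
    · exact Submodule.smul_mem _ _ (Submodule.subset_span ⟨_, _, e, rfl⟩)
    · have : bic g y k = 0 := by
        cases g <;> simp only [bik, bic] at e ⊢ <;> omega
      rw [this, zero_smul]; exact zero_mem _

end Vale.Agent.P354FA
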