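import Vale.Agent.P354FA.Rel

/-! The Bianchi pairs for the words, the quadratic sources, the matrix form of the action. -/

namespace Vale.Agent.P354FA

open MvPolynomial Gn
open Vale.Agent.P354XG (Der GHP)

/-- The boost weights. -/
def bx (x : Lt) : ℤ := 1 - x.1.toNat - x.2.toNat
def bl (w : List Lt) : ℤ := (w.map bx).sum
def bw (w : List Lt) (k : ℕ) : ℤ := 2 - k + bl w

def sh : Gn → ℤ
  | F => -1
  | E => 1
  | Fb => -1
  | Eb => 1
  | _ => 0

theorem bw_cons (x : Lt) (w : List Lt) (k : ℕ) : bw (x :: w) k = bw w k + bx x := by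
  simp only [bw, bl, List.map_cons, List.sum_cons]; ring

theorem bw_succ (w : List Lt) (k : ℕ) : bw w (k + 1) = bw w k - 1 := by
  simp only [bw]; push_cast; ring

theorem bx_cl (x : Lt) : bx (cl x) = bx x := by simp only [bx, cl]; ring

theorem bw_cl (w : List Lt) (k : ℕ) : bw (w.map cl) k = bw w k := by
  induction w with
  | nil => rfl
  | cons x w ih => rw [List.map_cons, bw_cons, bw_cons, ih, bx_cl]

theorem bx_lt {g : Gn} {x : Lt} (h : lc g x ≠ 0) : bx (lt g x) = bx x + sh g := by
  obtain ⟨a, b⟩ := x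
  cases g <;> cases a <;> cases b <;> first | rfl | exact absurd rfl h

theorem bw_wt {g : Gn} {c : Bool} {k : ℕ} (h : wc g c k ≠ 0) (w : List Lt) :
    bw w (wt g k) = bw w k + sh g := by
  cases g <;> cases c <;> simp only [wc, wt, sh, bw] at h ⊢ <;> omega

/-- The matrix of the action on the words. -/
def Mx (g : Gn) : List Lt → List Lt → ℤ
  | x :: w, y :: v => (if y = lt g x ∧ v = w then lc g x else 0) + if y = x then Mx g w v else 0
  | _, _ => 0

theorem gx_eq (g : Gn) (c : Bool) (k : ℕ) {s : ℕ} (j : Fin s → Lt) :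
    gx g c (List.ofFn j) k = wc g c k • X (c, List.ofFn j, wt g k) +
      ∑ j2 : Fin s → Lt, Mx g (List.ofFn j) (List.ofFn j2) • (X (c, List.ofFn j2, k) : Fm) := by
  induction s with
  | zero => simp [gx, Mx]
  | succ s ih =>
    rw [← (Fin.consEquiv fun _ => Lt).sum_comp, Fintype.sum_prod_type, List.ofFn_succ, gx, ih]
    simp only [Fin.consEquiv_apply, List.ofFn_succ, Fin.cons_zero, Fin.cons_succ, Mx, add_smul,
      Finset.sum_add_distrib, map_add, map_sum, Derivation.map_smul, nab_X, ite_and, ite_smul,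
      zero_smul, List.ofFn_inj, Finset.sum_ite_irrel, Finset.sum_const_zero, Finset.sum_ite_eq',
      Finset.mem_univ, if_true]
    abel

theorem Mx_bw {g : Gn} {w v : List Lt} (h : Mx g w v ≠ 0) (k : ℕ) : bw v k = bw w k + sh g := by
  induction w generalizing v with
  | nil => exact absurd rfl h
  | cons x w ih =>
    cases v with
    | nil => exact absurd rfl h
    | cons y v =>
      rw [bw_cons, bw_cons]
      by_cases e : (y = lt g x ∧ v = w) ∧ lc g x ≠ 0
      · rw [e.1.1, e.1.2, bx_lt e.2]; ring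
      · have : (if y = lt g x ∧ v = w then lc g x else 0) = 0 := by
          split_ifs with e2
          · exact not_not.1 fun e3 => e ⟨e2, e3⟩
          · rfl
        rw [Mx, this, zero_add] at h
        split_ifs at h with e2
        · rw [ih h, e2]; ring
        · exact absurd rfl h

theorem Mx_tr {g g' : Gn}
    (h : ∀ x y, (if y = lt g x then lc g x else 0) = if x = lt g' y then lc g' y else 0)
    (w v : List Lt) : Mx g w v = Mx g' v w := by
  induction w generalizing v with
  | nil => cases v <;> rfl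
  | cons x w ih =>
    cases v with
    | nil => rfl
    | cons y v =>
      simp only [Mx, ih]
      congr 1
      · by_cases e : v = w
        · simp only [e, and_true, h]
        · simp only [e, Ne.symm e, and_false, if_false]
      · simp only [eq_comm]

theorem Mx_F (w v : List Lt) : Mx F w v = Mx E v w := Mx_tr (by decide) w v
theorem Mx_Eb (w v : List Lt) : Mx Eb w v = Mx Fb v w := Mx_tr (by decide) w v

/-- Linear and quadratic forms of given length and boost weight. -/
noncomputable def L1 (T : ℕ → Prop) (j : ℕ) (b : ℤ) : Submodule ℤ Fm :=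
  Submodule.span ℤ {P | ∃ w k, T k ∧ List.length w = j ∧ bw w k = b ∧ P = X (false, w, k)}

noncomputable def Q2 (S : ℕ → ℕ → Prop) (j : ℕ) (b : ℤ) : Submodule ℤ Fm :=
  Submodule.span ℤ {P | ∃ c w1 k1 w2 k2, S k1 k2 ∧ List.length w1 + List.length w2 + 1 = j ∧
    bw w1 k1 + bw w2 k2 = b ∧ P = X (c, w1, k1) * X (false, w2, k2)}

theorem L1_nab {T : ℕ → Prop} {j : ℕ} {b : ℤ} {P : Fm} (h : P ∈ L1 T j b) (x : Lt) :
    nab x P ∈ L1 T (j + 1) (b + bx x) := by
  induction h using Submodule.span_induction with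
  | mem P hP =>
    obtain ⟨w, k, hT, rfl, rfl, rfl⟩ := hP
    rw [nab_X]; exact Submodule.subset_span ⟨x :: w, k, hT, rfl, bw_cons x w k, rfl⟩
  | zero => rw [map_zero]; exact zero_mem _
  | add P Q _ _ hP hQ => rw [map_add]; exact add_mem hP hQ
  | smul z P _ hP => rw [Derivation.map_smul]; exact Submodule.smul_mem _ _ hP

theorem act_L1 (g : Gn) (w : List Lt) (k : ℕ) : act g (X (false, w, k)) ∈
    L1 (fun k' => k' = k ∨ (k' = wt g k ∧ wc g false k ≠ 0)) w.length (bw w k + sh g) := by
  rw [act_X]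
  induction w with
  | nil =>
    by_cases e : wc g false k = 0
    · rw [gx, e, zero_smul]; exact zero_mem _
    · exact Submodule.smul_mem _ _
        (Submodule.subset_span ⟨[], _, Or.inr ⟨rfl, e⟩, rfl, bw_wt e _, rfl⟩)
  | cons x w ih =>
    refine add_mem ?_ ?_
    · by_cases e : lc g x = 0
      · rw [e, zero_smul]; exact zero_mem _
      · refine Submodule.smul_mem _ _
          (Submodule.subset_span ⟨lt g x :: w, k, Or.inl rfl, rfl, ?_, rfl⟩)
        rw [bw_cons, bw_cons, bx_lt e]; ring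
    · have := L1_nab ih x
      rwa [show bw w k + sh g + bx x = bw (x :: w) k + sh g by rw [bw_cons]; ring] at this

theorem mul_L1 {T : ℕ → Prop} {S : ℕ → ℕ → Prop} {j : ℕ} {b b' : ℤ} {P : Fm} (h : P ∈ L1 T j b)
    (c : Bool) (s : ℕ) (hS : ∀ k, T k → S s k) (hb : 2 - s + b = b') :
    X (c, [], s) * P ∈ Q2 S (j + 1) b' := by
  induction h using Submodule.span_induction with
  | mem P hP =>
    obtain ⟨w, k, hT, rfl, rfl, rfl⟩ := hP
    exact Submodule.subset_span ⟨c, [], s, w, k, hS k hT, by simp, by rw [← hb]; simp [bw, bl], rfl⟩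
  | zero => rw [mul_zero]; exact zero_mem _
  | add P Q _ _ hP hQ => rw [mul_add]; exact add_mem hP hQ
  | smul z P _ hP => rw [mul_smul_comm]; exact Submodule.smul_mem _ _ hP

theorem Q2_nab {S : ℕ → ℕ → Prop} {j : ℕ} {b : ℤ} {P : Fm} (h : P ∈ Q2 S j b) (x : Lt) :
    nab x P ∈ Q2 S (j + 1) (b + bx x) := by
  induction h using Submodule.span_induction with
  | mem P hP =>
    obtain ⟨c, w1, k1, w2, k2, hS, rfl, rfl, rfl⟩ := hP
    rw [dmul, nab_X, nab_X, mul_comm (X (false, w2, k2))]
    exact add_mem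
      (Submodule.subset_span ⟨c, w1, k1, x :: w2, k2, hS, rfl, by rw [bw_cons]; ring, rfl⟩)
      (Submodule.subset_span ⟨c, x :: w1, k1, w2, k2, hS, by simp only [List.length_cons]; ring,
        by rw [bw_cons]; ring, rfl⟩)
  | zero => rw [map_zero]; exact zero_mem _
  | add P Q _ _ hP hQ => rw [map_add]; exact add_mem hP hQ
  | smul z P _ hP => rw [Derivation.map_smul]; exact Submodule.smul_mem _ _ hP

theorem Q2_mono {S S' : ℕ → ℕ → Prop} (h : ∀ a b, S a b → S' a b) (j : ℕ) (b : ℤ) :
    Q2 S j b ≤ Q2 S' j b :=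
  Submodule.span_mono fun _ ⟨c, w1, k1, w2, k2, hS, e⟩ => ⟨c, w1, k1, w2, k2, h _ _ hS, e⟩

/-- The indices which occur when the letter x is moved through a word. -/
def Sx (x : Lt) (k k1 k2 : ℕ) : Prop := k2 ≤ 4 ∧
  ((k2 ≤ k ∧ (k1 ≤ x.1.toNat + 3 ∨ k1 ≤ x.2.toNat + 3)) ∨ (k2 = k + 1 ∧ k1 ≤ x.1.toNat + 1))

theorem Rf_Q2 (x y : Lt) (w : List Lt) {k : ℕ} (hk : k ≤ 4) :
    Rf x y (X (false, w, k)) ∈ Q2 (Sx x k) (w.length + 1) (bw w k + bx x + bx y) := by
  have y1 := Bool.toNat_le y.1
  have y2 := Bool.toNat_le y.2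
  refine add_mem ?_ ?_
  · by_cases e : eps x.2 y.2 = 0
    · rw [e, zero_smul]; exact zero_mem _
    · have e2 : (x.2.toNat : ℤ) + y.2.toNat = 1 := by
        revert e; cases x.2 <;> cases y.2 <;> simp [eps]
      refine Submodule.smul_mem _ _ (sub_mem (sub_mem (mul_L1 (act_L1 F w k) _ _ ?_ ?_)
        (mul_L1 (act_L1 H w k) _ _ ?_ ?_)) (mul_L1 (act_L1 E w k) _ _ ?_ ?_)) <;>
        simp only [Sx, wt, wc, sh, bx] <;> omega
  · by_cases e : eps x.1 y.1 = 0
    · rw [e, zero_smul]; exact zero_mem _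
    · have e2 : (x.1.toNat : ℤ) + y.1.toNat = 1 := by
        revert e; cases x.1 <;> cases y.1 <;> simp [eps]
      refine Submodule.smul_mem _ _ (sub_mem (sub_mem (mul_L1 (act_L1 Fb w k) _ _ ?_ ?_)
        (mul_L1 (act_L1 Hb w k) _ _ ?_ ?_)) (mul_L1 (act_L1 Eb w k) _ _ ?_ ?_)) <;>
        simp only [Sx, wt, wc, sh, bx] <;> omega

/-- The curvature terms which arise when the letter x is moved through the word. -/
noncomputable def mv (x : Lt) (k : ℕ) : List Lt → Fm
  | [] => 0
  | y :: w => Rf x y (X (false, w, k)) + nab y (mv x k w)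

theorem mv_Q2 (x : Lt) {k : ℕ} (hk : k ≤ 4) (w : List Lt) :
    mv x k w ∈ Q2 (Sx x k) w.length (bw w k + bx x) := by
  induction w with
  | nil => exact zero_mem _
  | cons y w ih =>
    rw [show bw (y :: w) k + bx x = bw w k + bx x + bx y by rw [bw_cons]; ring]
    exact add_mem (Rf_Q2 x y w hk) (Q2_nab ih y)

variable {A : Type*} [CommRing A] [Algebra ℂ A] {G : GHP A} (h : G.Is)
include h

theorem mv_mem (x : Lt) (k : ℕ) (w : List Lt) :
    X (false, x :: w, k) - X (false, w ++ [x], k) - mv x k w ∈ Nl G := by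
  induction w with
  | nil => simp [mv]
  | cons y w ih =>
    have := add_mem (Com_mem h x y (X (false, w, k))) (Nl.nab ih y)
    simp only [Com, map_sub, nab_X] at this
    rw [mv, List.cons_append, ← sub_sub]
    rwa [← add_sub_assoc, sub_add_eq_add_sub, sub_add_sub_cancel] at this

theorem bia_mem (y : Bool) {k : ℕ} (hk : k ≤ 3) (w : List Lt) :
    (X (false, w ++ [(true, y)], k) - X (false, w ++ [(false, y)], k + 1) : Fm) ∈ Nl G := by
  induction w with
  | nil => exact Bia_mem h y hk
  | cons x w ih => simpa only [map_sub, nab_X, List.cons_append] using Nl.nab ih x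

/-- The Bianchi pairs for the words: y = true is the pair (n, m), y = false the pair (mb, l). -/
theorem pair (y : Bool) {k : ℕ} (hk : k ≤ 3) (w : List Lt) :
    val G (false, (true, y) :: w, k) = val G (false, (false, y) :: w, k + 1) +
      ev G (mv (true, y) k w - mv (false, y) (k + 1) w) := by
  have e1 := Nl.ev (mv_mem h (true, y) k w)
  have e2 := Nl.ev (mv_mem h (false, y) (k + 1) w)
  have e3 := Nl.ev (bia_mem h y hk w)
  simp only [map_sub, ev_X] at e1 e2 e3 ⊢
  linear_combination e1 - e2 + e3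

end Vale.Agent.P354FA
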